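import Vale.Agent.P338.Lang
import Vale.Agent.P338.CoreSpec
import Vale.Agent.P338.H763.Lib

/-!
# P338, arithmetic modulo `p` with numbers of fixed width, as stack programs (helper463)

Numbers are lists of `W` bits, least significant bit on top.  Own register type `NR`; use
`Prog.ren` to run the programs on other registers.
-/

namespace Vale.Agent.P338.Num

open Vale.Agent.P338

/-! ### Values of bit lists -/

theorem lval_lt (l : List Bool) : lval l < 2 ^ l.length := by
  induction l with
  | nil => simp [lval]
  | cons a l ih =>
    have : a.toNat ≤ 1 := by cases a <;> simp
    rw [lval, List.length_cons, pow_succ]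
    omega

theorem lbits_length (w x : ℕ) : (lbits w x).length = w := by
  induction w generalizing x with
  | zero => rfl
  | succ w ih => simp [lbits, ih]

theorem lval_lbits (w x : ℕ) : lval (lbits w x) = x % 2 ^ w := by
  induction w generalizing x with
  | zero => simp [lbits, lval, Nat.mod_one]
  | succ w ih =>
    rw [lbits, lval, ih, pow_succ, mul_comm (2 ^ w) 2, Nat.mod_mul]
    congr 1
    rcases Nat.mod_two_eq_zero_or_one x with h | h <;> simp [h]

theorem lbits_lval (l : List Bool) : lbits l.length (lval l) = l := by
  induction l with
  | nil => rfl
  | cons a l ih =>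
    rw [List.length_cons, lbits, lval]
    congr 1
    · cases a <;> simp
    · have : (a.toNat + 2 * lval l) / 2 = lval l := by
        have : a.toNat ≤ 1 := by cases a <;> simp
        omega
      rw [this, ih]

theorem lval_inj {l l' : List Bool} (h : l.length = l'.length) (hv : lval l = lval l') :
    l = l' := by
  rw [← lbits_lval l, ← lbits_lval l', h, hv]

theorem eq_lbits {l : List Bool} {w x : ℕ} (h : l.length = w) (hv : lval l = x) :
    l = lbits w x := by
  rw [← lbits_lval l, h, hv]

theorem lval_append (l l' : List Bool) : lval (l ++ l') = lval l + 2 ^ l.length * lval l' := by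
  induction l with
  | nil => simp [lval]
  | cons a l ih =>
    rw [List.cons_append, lval, ih, lval, List.length_cons, pow_succ]
    ring

theorem lval_zer (n : ℕ) : lval (List.replicate n false) = 0 := by
  induction n with
  | zero => rfl
  | succ n ih => simp [List.replicate_succ, lval, ih]

/-! ### Ripple addition and subtraction -/

/-- sum bit and carry -/
def fa (a b k : Bool) : Bool × Bool := (xor (xor a b) k, (a && b) || (k && xor a b))

/-- difference bit and borrow -/
def fs (a b k : Bool) : Bool × Bool := (xor (xor a b) k, (!a && (b || k)) || (b && k))

/-- addition of two lists with a carry -/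
def addL : Bool → List Bool → List Bool → List Bool × Bool
  | k, a :: as, b :: bs =>
    ((fa a b k).1 :: (addL (fa a b k).2 as bs).1, (addL (fa a b k).2 as bs).2)
  | k, _, _ => ([], k)

/-- subtraction of two lists with a borrow -/
def subL : Bool → List Bool → List Bool → List Bool × Bool
  | k, a :: as, b :: bs =>
    ((fs a b k).1 :: (subL (fs a b k).2 as bs).1, (subL (fs a b k).2 as bs).2)
  | k, _, _ => ([], k)

theorem addL_len (k : Bool) (a b : List Bool) (h : a.length = b.length) :
    (addL k a b).1.length = a.length := by
  induction a generalizing b k with
  | nil => simp [addL]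
  | cons x a ih =>
    cases b with
    | nil => simp at h
    | cons y b => simp only [addL, List.length_cons]; rw [ih _ _ (by simpa using h)]

theorem subL_len (k : Bool) (a b : List Bool) (h : a.length = b.length) :
    (subL k a b).1.length = a.length := by
  induction a generalizing b k with
  | nil => simp [subL]
  | cons x a ih =>
    cases b with
    | nil => simp at h
    | cons y b => simp only [subL, List.length_cons]; rw [ih _ _ (by simpa using h)]

theorem addL_val (k : Bool) (a b : List Bool) (h : a.length = b.length) :
    lval (addL k a b).1 + 2 ^ a.length * (addL k a b).2.toNat =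
      lval a + lval b + k.toNat := by
  induction a generalizing b k with
  | nil =>
    cases b with
    | nil => simp [addL, lval]
    | cons y b => simp at h
  | cons x a ih =>
    cases b with
    | nil => simp at h
    | cons y b =>
      have := ih (fa x y k).2 b (by simpa using h)
      simp only [addL, lval, List.length_cons, pow_succ]
      have e : (fa x y k).1.toNat + 2 * (fa x y k).2.toNat = x.toNat + y.toNat + k.toNat := by
        cases x <;> cases y <;> cases k <;> rfl
      linarith

theorem subL_val (k : Bool) (a b : List Bool) (h : a.length = b.length) :
    lval (subL k a b).1 + lval b + k.toNat =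
      lval a + 2 ^ a.length * (subL k a b).2.toNat := by
  induction a generalizing b k with
  | nil =>
    cases b with
    | nil => simp [subL, lval]
    | cons y b => simp at h
  | cons x a ih =>
    cases b with
    | nil => simp at h
    | cons y b =>
      have := ih (fs x y k).2 b (by simpa using h)
      simp only [subL, lval, List.length_cons, pow_succ]
      have e : (fs x y k).1.toNat + y.toNat + k.toNat = x.toNat + 2 * (fs x y k).2.toNat := by
        cases x <;> cases y <;> cases k <;> rfl
      linarith

/-- borrow of `a - b` -/
theorem subL_borrow (a b : List Bool) (h : a.length = b.length) :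
    (subL false a b).2 = decide (lval a < lval b) := by
  have h1 := subL_val false a b h
  have h2 := lval_lt (subL false a b).1
  have h3 := lval_lt a
  have h4 := lval_lt b
  rw [subL_len _ _ _ h] at h2
  cases hb : (subL false a b).2
  · rw [hb] at h1
    simp only [Bool.toNat_false, mul_zero, add_zero] at h1
    symm
    rw [decide_eq_false_iff_not]
    omega
  · rw [hb] at h1
    simp only [Bool.toNat_false, Bool.toNat_true, mul_one, add_zero] at h1
    symm
    rw [decide_eq_true_eq]
    omega

/-- addition modulo `p` on lists -/
def addM (p a b : List Bool) : List Bool :=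
  if (subL false (addL false a b).1 p).2 then (addL false a b).1
  else (subL false (addL false a b).1 p).1

theorem addM_spec {W P u v : ℕ} (hu : u < P) (hv : v < P) (hP : 2 * P ≤ 2 ^ W) :
    addM (lbits W P) (lbits W u) (lbits W v) = lbits W ((u + v) % P) ∧
      (subL false (addL false (lbits W u) (lbits W v)).1 (lbits W P)).2 = decide (u + v < P) := by
  have l1 : (lbits W u).length = (lbits W v).length := by rw [lbits_length, lbits_length]
  have h1 := addL_val false (lbits W u) (lbits W v) l1
  have e1 := addL_len false (lbits W u) (lbits W v) l1
  rw [lbits_length] at e1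
  rw [lval_lbits, lval_lbits, Nat.mod_eq_of_lt (by omega), Nat.mod_eq_of_lt (by omega),
    lbits_length] at h1
  have h2 : (addL false (lbits W u) (lbits W v)).2 = false := by
    cases hb : (addL false (lbits W u) (lbits W v)).2
    · rfl
    · rw [hb] at h1
      simp only [Bool.toNat_true, Bool.toNat_false, mul_one] at h1
      omega
  rw [h2] at h1
  simp only [Bool.toNat_false, mul_zero, add_zero] at h1
  have l2 : (addL false (lbits W u) (lbits W v)).1.length = (lbits W P).length := by
    rw [e1, lbits_length]
  have h3 := subL_borrow _ _ l2
  rw [h1, lval_lbits, Nat.mod_eq_of_lt (by omega)] at h3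
  refine ⟨?_, h3⟩
  rw [addM, h3]
  by_cases h : u + v < P
  · rw [if_pos (by simpa using h)]
    exact eq_lbits e1 (by rw [h1, Nat.mod_eq_of_lt h])
  · rw [if_neg (by simpa using h)]
    refine eq_lbits (by rw [subL_len _ _ _ l2, e1]) ?_
    have h4 := subL_val false _ _ l2
    rw [h1, lval_lbits, Nat.mod_eq_of_lt (by omega : P < 2 ^ W), h3, decide_eq_false h] at h4
    simp only [Bool.toNat_false, mul_zero, add_zero] at h4
    rw [Nat.mod_eq_sub_mod (by omega), Nat.mod_eq_of_lt (by omega)]
    omega

end Vale.Agent.P338.Num
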