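import Vale.Agent.P338.Defs

/-!
# P338, simulation of a machine by stacks: the zipper representation (helper463)

`ZCfg A`: a configuration of the machine `A`, every tape being given by the list of the cells to
the left of the head (nearest first), the scanned symbol, and the list of the cells to the right
(nearest first).  `zstep` is the step on such configurations, `Rep` the relation with `Cfg`.
-/

namespace Vale.Agent.P338.Sim

open Vale.Agent.P338

/-- `(L, h, R)` represents the one-way infinite tape `t : ℕ → Γ` with head at `p`:
`L` are the cells to the left of the head (nearest first), `h` is the scanned symbol, `R` are the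
cells to the right (nearest first); all further cells are blank. -/
structure Zip {Γ : Type} (bl : Γ) (t : ℕ → Γ) (p : ℕ) (L : List Γ) (h : Γ) (R : List Γ) :
    Prop where
  len : L.length = p
  left : ∀ i < p, t i = L.getD (p - 1 - i) bl
  head : t p = h
  right : ∀ i, t (p + 1 + i) = R.getD i bl

section zip

variable {Γ : Type} {bl : Γ} {t : ℕ → Γ} {p : ℕ} {L R : List Γ} {h : Γ}

theorem Zip.write (z : Zip bl t p L h R) (a : Γ) :
    Zip bl (Function.update t p a) p L a R := by
  refine ⟨z.len, fun i hi => ?_, by simp, fun i => ?_⟩
  · rw [Function.update_of_ne (by omega)]; exact z.left i hi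
  · rw [Function.update_of_ne (by omega)]; exact z.right i

/-- move right -/
theorem Zip.move_right (z : Zip bl t p L h R) :
    Zip bl t (p + 1) (h :: L) (R.headD bl) R.tail := by
  refine ⟨by simp [z.len], fun i hi => ?_, ?_, fun i => ?_⟩
  · rcases Nat.lt_or_ge i p with h1 | h1
    · have e : p + 1 - 1 - i = (p - 1 - i) + 1 := by omega
      rw [e, List.getD_cons_succ]
      exact z.left i h1
    · have e : i = p := by omega
      subst e
      simp [z.head]
  · have := z.right 0
    simp only [add_zero] at this
    rw [this]
    cases R <;> simp
  · have := z.right (i + 1)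
    rw [show p + 1 + 1 + i = p + 1 + (i + 1) by ring, this]
    cases R <;> simp

/-- move left, not at the left end -/
theorem Zip.move_left {x : Γ} (z : Zip bl t p (x :: L) h R) :
    Zip bl t (p - 1) L x (h :: R) := by
  have hl := z.len
  simp only [List.length_cons] at hl
  refine ⟨by omega, fun i hi => ?_, ?_, fun i => ?_⟩
  · have := z.left i (by omega)
    have e : p - 1 - i = (p - 1 - 1 - i) + 1 := by omega
    rw [e, List.getD_cons_succ] at this
    exact this
  · have := z.left (p - 1) (by omega)
    rw [this]
    simp
  · rcases i with _ | i
    · have e : p - 1 + 1 + 0 = p := by omega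
      rw [e, z.head]; simp
    · have e : p - 1 + 1 + (i + 1) = p + 1 + i := by omega
      rw [e, z.right i]; simp

/-- move left at the left end: nothing happens -/
theorem Zip.move_left_nil (z : Zip bl t p [] h R) : Zip bl t (p - 1) [] h R := by
  have hl := z.len
  simp only [List.length_nil] at hl
  subst hl
  exact z

/-- the contents of the tape -/
theorem Zip.get (z : Zip bl t p L h R) (i : ℕ) : t i = (L.reverse ++ h :: R).getD i bl := by
  have hl := z.len
  rcases Nat.lt_or_ge i p with h1 | h1
  · rw [z.left i h1]
    simp only [List.getD_eq_getElem?_getD]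
    rw [List.getElem?_append_left (by simpa [hl] using h1), List.getElem?_reverse (by omega), hl]
  · obtain ⟨j, rfl⟩ := Nat.exists_eq_add_of_le h1
    simp only [List.getD_eq_getElem?_getD]
    rw [List.getElem?_append_right (by simp [hl])]
    simp only [List.length_reverse, hl]
    rw [show p + j - p = j by omega]
    rcases j with _ | j
    · simpa using z.head
    · have := z.right j
      rw [show p + (j + 1) = p + 1 + j by ring, this]
      simp

theorem zip_start (w : List Γ) : Zip bl (fun j => w.getD j bl) 0 [] (w.headD bl) w.tail := by
  refine ⟨rfl, fun i hi => absurd hi (Nat.not_lt_zero _), ?_, fun i => ?_⟩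
  · cases w <;> simp
  · cases w with
    | nil => simp
    | cons a w => simp [show 0 + 1 + i = i + 1 by ring]

end zip

variable (A : Machine)

/-- A configuration of `A` in zipper form. -/
structure ZCfg where
  q : A.Q
  h : Fin (A.k + 1) → Symb A.E
  L : Fin (A.k + 1) → List (Symb A.E)
  R : Fin (A.k + 1) → List (Symb A.E)

variable {A}

/-- the move of one tape, in zipper form: new head symbol -/
def mvh (w : Symb A.E × Move) (L R : List (Symb A.E)) : Symb A.E :=
  match w.2 with
  | Move.left => L.headD w.1
  | Move.stay => w.1
  | Move.right => R.headD Symb.blank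

/-- the move of one tape, in zipper form: new left stack -/
def mvL (w : Symb A.E × Move) (L : List (Symb A.E)) : List (Symb A.E) :=
  match w.2 with
  | Move.left => L.tail
  | Move.stay => L
  | Move.right => w.1 :: L

/-- the move of one tape, in zipper form: new right stack -/
def mvR (w : Symb A.E × Move) (L R : List (Symb A.E)) : List (Symb A.E) :=
  match w.2 with
  | Move.left => if L = [] then R else w.1 :: R
  | Move.stay => R
  | Move.right => R.tail

/-- the step in zipper form -/
def zstep (z : ZCfg A) : Option (ZCfg A) :=
  (A.δ z.q z.h).map fun r =>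
    { q := r.1
      h := fun i => mvh (r.2 i) (z.L i) (z.R i)
      L := fun i => mvL (r.2 i) (z.L i)
      R := fun i => mvR (r.2 i) (z.L i) (z.R i) }

/-- `z` represents the configuration `c` -/
structure Rep (c : A.Cfg) (z : ZCfg A) : Prop where
  state : c.state = z.q
  tape : ∀ i, Zip Symb.blank (c.tape i) (c.head i) (z.L i) (z.h i) (z.R i)

theorem Rep.reads {c : A.Cfg} {z : ZCfg A} (r : Rep c z) :
    (fun i => c.tape i (c.head i)) = z.h := funext fun i => (r.tape i).head

theorem Rep.halt {c : A.Cfg} {z : ZCfg A} (r : Rep c z) (h : A.step c = none) :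
    A.δ z.q z.h = none := by
  rw [Machine.step, Option.map_eq_none_iff, r.reads, r.state] at h
  exact h

theorem Rep.step {c c' : A.Cfg} {z : ZCfg A} (r : Rep c z) (h : A.step c = some c') :
    ∃ z', zstep z = some z' ∧ Rep c' z' := by
  rw [Machine.step, Option.map_eq_some_iff, r.reads, r.state] at h
  obtain ⟨a, ha, rfl⟩ := h
  refine ⟨_, by rw [zstep, ha]; rfl, rfl, fun i => ?_⟩
  have zi := (r.tape i).write (a.2 i).1
  dsimp only
  revert zi
  rcases a.2 i with ⟨w, m⟩
  intro zi
  cases m with
  | left =>
    simp only [mvh, mvL, mvR, Move.app]
    cases hL : z.L i with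
    | nil =>
      rw [hL] at zi
      simpa using zi.move_left_nil
    | cons x l =>
      rw [hL] at zi
      simpa using zi.move_left
  | stay => exact zi
  | right => exact zi.move_right

/-- the start in zipper form -/
def zinit (A : Machine) (w : List (Symb A.E)) : ZCfg A where
  q := A.start
  h := fun i => if i = 0 then w.headD Symb.blank else Symb.blank
  L := fun _ => []
  R := fun i => if i = 0 then w.tail else []

theorem rep_init (w : List (Symb A.E)) : Rep (A.init w) (zinit A w) := by
  refine ⟨rfl, fun i => ?_⟩
  by_cases hi : i = 0
  · subst hi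
    exact zip_start (bl := Symb.blank) w
  · simp only [zinit, Machine.init, hi, if_false]
    exact zip_start (bl := (Symb.blank : Symb A.E)) []

/-- the zipper configuration after `t` steps -/
def zafter (A : Machine) (w : List (Symb A.E)) : ℕ → Option (ZCfg A)
  | 0 => some (zinit A w)
  | t + 1 => (zafter A w t).bind zstep

theorem rep_after {w : List (Symb A.E)} {t : ℕ} {c : A.Cfg} (h : A.after w t = some c) :
    ∃ z, zafter A w t = some z ∧ Rep c z := by
  induction t generalizing c with
  | zero =>
    simp only [Machine.after, Option.some.injEq] at h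
    subst h
    exact ⟨_, rfl, rep_init w⟩
  | succ t ih =>
    simp only [Machine.after, Option.bind_eq_some_iff] at h
    obtain ⟨c', h1, h2⟩ := h
    obtain ⟨z, h3, r⟩ := ih h1
    obtain ⟨z', h4, r'⟩ := r.step h2
    exact ⟨z', by simp [zafter, h3, h4], r'⟩

/-- number of cells used -/
def ZCfg.len (z : ZCfg A) (i : Fin (A.k + 1)) : ℕ := (z.L i).length + (z.R i).length

theorem zstep_len {z z' : ZCfg A} (h : zstep z = some z') (i : Fin (A.k + 1)) :
    z'.len i ≤ z.len i + 1 := by
  rw [zstep, Option.map_eq_some_iff] at h
  obtain ⟨a, -, rfl⟩ := h
  simp only [ZCfg.len]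
  obtain ⟨w, m⟩ := a.2 i
  cases m with
  | left =>
    simp only [mvL, mvR]
    cases hL : z.L i with
    | nil => simp
    | cons x l => simp; omega
  | stay => simp [mvL, mvR]
  | right => simp [mvL, mvR]; omega

theorem zafter_len {w : List (Symb A.E)} {t : ℕ} {z : ZCfg A} (h : zafter A w t = some z)
    (i : Fin (A.k + 1)) : z.len i ≤ w.length + t := by
  induction t generalizing z with
  | zero =>
    simp only [zafter, Option.some.injEq] at h
    subst h
    by_cases hi : i = 0
    · simp [ZCfg.len, zinit, hi]
    · simp [ZCfg.len, zinit, hi]
  | succ t ih =>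
    simp only [zafter, Option.bind_eq_some_iff] at h
    obtain ⟨z', h1, h2⟩ := h
    have := ih h1
    have := zstep_len h2 i
    omega

/-- is it a bit? -/
def isBit {E : Type} : Symb E → Bool
  | Symb.bit _ => true
  | _ => false

/-- reading the output in zipper form -/
theorem out_word {c : A.Cfg} {z : ZCfg A} (r : Rep c z) {o : List Bool}
    (h : c.tape A.out = Machine.written (o.map Symb.bit)) :
    ∃ m, (z.L A.out).reverse ++ z.h A.out :: z.R A.out =
      o.map Symb.bit ++ List.replicate m Symb.blank := by
  have hz := r.tape A.out
  obtain ⟨X, hX⟩ : ∃ X, X = (z.L A.out).reverse ++ z.h A.out :: z.R A.out := ⟨_, rfl⟩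
  rw [← hX]
  have hget : ∀ i, (o.map (Symb.bit : Bool → Symb A.E)).getD i Symb.blank =
      X.getD i Symb.blank := fun i => by
    rw [hX, ← hz.get i, h]; rfl
  have hlen : o.length ≤ X.length := by
    by_contra hc
    push Not at hc
    have h1 := hget X.length
    simp only [List.getD_eq_getElem?_getD] at h1
    rw [List.getElem?_eq_getElem (by simpa using hc), List.getElem?_eq_none le_rfl] at h1
    simp at h1
  refine ⟨X.length - o.length, List.ext_getElem? fun i => ?_⟩
  have h1 := hget i
  simp only [List.getD_eq_getElem?_getD] at h1
  rcases Nat.lt_or_ge i o.length with h2 | h2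
  · have hm : i < (o.map (Symb.bit : Bool → Symb A.E)).length := by simpa using h2
    have hX' : i < X.length := by omega
    rw [List.getElem?_append_left hm]
    rw [List.getElem?_eq_getElem hm, List.getElem?_eq_getElem hX'] at h1 ⊢
    simpa using h1.symm
  · have hm : (o.map (Symb.bit : Bool → Symb A.E)).length ≤ i := by simpa using h2
    rw [List.getElem?_append_right hm]
    rw [List.getElem?_eq_none hm] at h1
    rcases Nat.lt_or_ge i X.length with h3 | h3
    · rw [List.getElem?_eq_getElem h3] at h1 ⊢
      rw [List.getElem?_replicate]
      simp only [Option.getD_none, Option.getD_some, List.length_map] at h1 ⊢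
      rw [if_pos (by omega), ← h1]
    · rw [List.getElem?_eq_none h3, List.getElem?_replicate, if_neg]
      simp only [List.length_map]
      omega

end Vale.Agent.P338.Sim
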