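import Vale.Agent.P338.Lang
import Vale.Agent.P338.H463.Zip

/-!
# P338, simulation of a machine by a stack program (helper463)
-/

namespace Vale.Agent.P338.Sim

open Vale.Agent.P338

variable {A : Machine}

/-- Registers (stacks) holding the configuration of `A`. -/
inductive AReg (A : Machine) : Type
  | ctl : AReg A
  | left (i : Fin (A.k + 1)) : AReg A
  | right (i : Fin (A.k + 1)) : AReg A
  deriving DecidableEq

/-- What we need of the alphabet. -/
structure SymI (A : Machine) (Γ : Type) where
  tick : Γ
  bit : Bool → Γ
  cell : Symb A.E → Γ
  ctl : A.Q × (Fin (A.k + 1) → Symb A.E) → Γ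
  unbit : Γ → Option Bool
  uncell : Γ → Option (Symb A.E)
  unctl : Γ → Option (A.Q × (Fin (A.k + 1) → Symb A.E))
  unbit_bit : ∀ b, unbit (bit b) = some b
  uncell_cell : ∀ a, uncell (cell a) = some a
  unctl_ctl : ∀ c, unctl (ctl c) = some c

set_option linter.unusedSectionVars false

variable {P Γ : Type} [DecidableEq P] (I : SymI A Γ)

/-- The store with own part `s` and the configuration `z` of `A`. -/
def put (s : P → List Γ) (z : ZCfg A) : Store (P ⊕ AReg A) Γ
  | .inl p => s p
  | .inr .ctl => [I.ctl (z.q, z.h)]
  | .inr (.left i) => (z.L i).map I.cell
  | .inr (.right i) => (z.R i).map I.cell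

/-- The store with own part `s`, the stacks of `A` being empty. -/
def own (s : P → List Γ) : Store (P ⊕ AReg A) Γ
  | .inl p => s p
  | .inr _ => []

/-- the symbol under a head / a control symbol seen on the top of a stack -/
def getCell (o : Option Γ) : Option (Symb A.E) := o.bind I.uncell

/-- One step of `A`. -/
def stepA : Prog (P ⊕ AReg A) Γ := .act fun t =>
  match (t (.inr .ctl)).bind I.unctl with
  | none => fun _ => .nop
  | some (q, h) =>
    match A.δ q h with
    | none => fun _ => .nop
    | some (q', w) => fun r =>
      match r with
      | .inl _ => .nop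
      | .inr .ctl => .rep (I.ctl (q', fun i =>
          match (w i).2 with
          | .left => (getCell I (t (.inr (.left i)))).getD (w i).1
          | .stay => (w i).1
          | .right => (getCell I (t (.inr (.right i)))).getD Symb.blank))
      | .inr (.left i) =>
        match (w i).2 with
        | .left => .pop
        | .stay => .nop
        | .right => .push (I.cell (w i).1)
      | .inr (.right i) =>
        match (w i).2 with
        | .left => if (t (.inr (.left i))).isSome then .push (I.cell (w i).1) else .nop
        | .stay => .nop
        | .right => .pop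

theorem stepA_runs (s : P → List Γ) {z z' : ZCfg A} (h : zstep z = some z') :
    Runs (stepA I) (put I s z) (put I s z') 1 := by
  refine (Runs.act _ _).conv ?_ le_rfl
  rw [zstep, Option.map_eq_some_iff] at h
  obtain ⟨⟨q', w⟩, h1, rfl⟩ := h
  funext r
  have e1 : ((put I s z).tops (.inr .ctl)).bind I.unctl = some (z.q, z.h) := by
    simp [Store.tops, put, I.unctl_ctl]
  simp only [e1, h1]
  rcases r with p | _ | i | i
  · simp [put, Op.app]
  · simp only [put, Op.app, List.cons.injEq, and_true]
    congr 2
    funext i
    rcases hw : w i with ⟨a, m⟩
    cases m with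
    | left =>
      simp only [mvh, getCell, Store.tops, put]
      cases z.L i <;> simp [I.uncell_cell]
    | stay => simp [mvh]
    | right =>
      simp only [mvh, getCell, Store.tops, put]
      cases z.R i <;> simp [I.uncell_cell]
  · simp only [put]
    rcases hw : w i with ⟨a, m⟩
    cases m <;> simp [mvL, Op.app, List.map_tail]
  · simp only [put]
    rcases hw : w i with ⟨a, m⟩
    cases m with
    | left =>
      cases hL : z.L i with
      | nil =>
        have e2 : (put I s z).tops (.inr (.left i)) = none := by simp [Store.tops, put, hL]
        simp [mvR, e2, Op.app]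
      | cons x l =>
        have e2 : (put I s z).tops (.inr (.left i)) = some (I.cell x) := by
          simp [Store.tops, put, hL]
        simp [mvR, e2, Op.app]
    | stay => simp [mvR, Op.app]
    | right => simp [mvR, Op.app, List.map_tail]

/-- Has `A` not yet halted? -/
def running (t : P ⊕ AReg A → Option Γ) : Bool :=
  match (t (.inr .ctl)).bind I.unctl with
  | none => false
  | some (q, h) => (A.δ q h).isSome

theorem running_put (s : P → List Γ) (z : ZCfg A) :
    running I (put I s z).tops = (A.δ z.q z.h).isSome := by
  simp [running, Store.tops, put, I.unctl_ctl]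

/-- general store: own part, control stack, left stacks, right stacks -/
def mk (s : P → List Γ) (c : List Γ) (L R : Fin (A.k + 1) → List Γ) : Store (P ⊕ AReg A) Γ
  | .inl p => s p
  | .inr .ctl => c
  | .inr (.left i) => L i
  | .inr (.right i) => R i

theorem put_eq (s : P → List Γ) (z : ZCfg A) :
    put I s z = mk s [I.ctl (z.q, z.h)] (fun i => (z.L i).map I.cell)
      (fun i => (z.R i).map I.cell) := by
  funext r
  rcases r with p | _ | i | i <;> rfl

theorem own_eq (s : P → List Γ) :
    (own s : Store (P ⊕ AReg A) Γ) = mk s [] (fun _ => []) (fun _ => []) := by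
  funext r
  rcases r with p | _ | i | i <;> rfl

theorem mk_update_inl (s : P → List Γ) (c : List Γ) (L R : Fin (A.k + 1) → List Γ) (p : P)
    (l : List Γ) : Function.update (mk s c L R) (.inl p) l = mk (Function.update s p l) c L R := by
  funext r
  rcases r with q | _ | i | i
  · by_cases h : q = p
    · subst h; simp [mk]
    · simp [mk, h]
  · simp [mk]
  · simp [mk]
  · simp [mk]

theorem mk_update_left (s : P → List Γ) (c : List Γ) (L R : Fin (A.k + 1) → List Γ)
    (i : Fin (A.k + 1)) (l : List Γ) :
    Function.update (mk s c L R) (.inr (.left i)) l = mk s c (Function.update L i l) R := by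
  funext r
  rcases r with q | _ | j | j
  · simp [mk]
  · simp [mk]
  · by_cases h : j = i
    · subst h; simp [mk]
    · simp [mk, h]
  · simp [mk]

theorem mk_update_right (s : P → List Γ) (c : List Γ) (L R : Fin (A.k + 1) → List Γ)
    (i : Fin (A.k + 1)) (l : List Γ) :
    Function.update (mk s c L R) (.inr (.right i)) l = mk s c L (Function.update R i l) := by
  funext r
  rcases r with q | _ | j | j
  · simp [mk]
  · simp [mk]
  · simp [mk]
  · by_cases h : j = i
    · subst h; simp [mk]
    · simp [mk, h]

/-! ### Loading -/

/-- Move the bits of `x` to the right stack of tape `0`; push a zero on `out` for each. -/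
def load (x out : P) : Prog (P ⊕ AReg A) Γ := .loop (fun t => (t (.inl x)).isSome) (.act fun t r =>
  match r with
  | .inl p => if p = x then .pop else if p = out then .push (I.bit false) else .nop
  | .inr .ctl => .nop
  | .inr (.left _) => .nop
  | .inr (.right i) => if i = 0 then
      .push (I.cell (Symb.bit (((t (.inl x)).bind I.unbit).getD false))) else .nop)

theorem load_runs {x out : P} (hx : x ≠ out) (l : List Bool) (s : P → List Γ) (c : List Γ)
    (L R : Fin (A.k + 1) → List Γ) (hs : s x = l.map I.bit) :
    Runs (load I x out) (mk s c L R)
      (mk (Function.update (Function.update s x []) out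
        (List.replicate l.length (I.bit false) ++ s out)) c L
        (Function.update R 0 (l.reverse.map (fun b => I.cell (Symb.bit b)) ++ R 0)))
      (2 * l.length + 1) := by
  induction l generalizing s R with
  | nil =>
    refine (Runs.loop_stop (by simp [Store.tops, mk, hs])).conv ?_ (by simp)
    funext r
    rcases r with q | _ | j | j
    · by_cases h : q = out
      · subst h; simp [mk]
      · by_cases h' : q = x
        · subst h'; simp [mk, h, hs]
        · simp [mk, h, h']
    · rfl
    · rfl
    · by_cases h : j = 0
      · subst h; simp [mk]
      · simp [mk, h]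
  | cons b l ih =>
    have h1 : Runs (.act fun t r =>
        match r with
        | .inl p => if p = x then .pop else if p = out then .push (I.bit false) else .nop
        | .inr .ctl => .nop
        | .inr (.left _) => .nop
        | .inr (.right i) => if i = 0 then
            .push (I.cell (Symb.bit (((t (.inl x)).bind I.unbit).getD false))) else .nop)
        (mk s c L R) (mk (Function.update (Function.update s x (l.map I.bit)) out
          (I.bit false :: s out)) c L (Function.update R 0 (I.cell (Symb.bit b) :: R 0))) 1 := by
      refine (Runs.act _ _).conv ?_ le_rfl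
      funext r
      rcases r with q | _ | j | j
      · by_cases h : q = out
        · subst h; simp [mk, Op.app, Ne.symm hx]
        · by_cases h' : q = x
          · subst h'; simp [mk, h, hs, Op.app]
          · simp [mk, h, h', Op.app]
      · rfl
      · rfl
      · by_cases h : j = 0
        · subst h
          simp [mk, Op.app, Store.tops, hs, I.unbit_bit]
        · simp [mk, h, Op.app]
    have h2 := ih (Function.update (Function.update s x (l.map I.bit)) out
      (I.bit false :: s out)) (Function.update R 0 (I.cell (Symb.bit b) :: R 0))
      (by simp [hx])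
    refine (Runs.loop_step (by simp [Store.tops, mk, hs]) h1 h2).conv ?_
      (by simp only [List.length_cons]; omega)
    congr 1
    · funext q
      by_cases h : q = out
      · subst h
        simp only [Function.update_self, List.length_cons]
        rw [List.replicate_succ', List.append_assoc, List.singleton_append]
      · by_cases h' : q = x
        · subst h'; simp [h]
        · simp [h, h']
    · funext j
      by_cases h : j = 0
      · subst h; simp
      · simp [h]

/-- Start of `A`. -/
def start : Prog (P ⊕ AReg A) Γ := .act fun t r =>
  match r with
  | .inl _ => .nop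
  | .inr .ctl => .push (I.ctl (A.start, fun i => if i = 0 then
      (getCell I (t (.inr (.right 0)))).getD Symb.blank else Symb.blank))
  | .inr (.left _) => .nop
  | .inr (.right i) => if i = 0 then .pop else .nop

theorem start_runs (s : P → List Γ) (w : List (Symb A.E)) :
    Runs (start I) (mk s [] (fun _ => []) (Function.update (fun _ => []) 0 (w.map I.cell)))
      (put I s (zinit A w)) 1 := by
  refine (Runs.act _ _).conv ?_ le_rfl
  funext r
  rcases r with q | _ | j | j
  · rfl
  · simp only [put, mk, Op.app, zinit, List.cons.injEq, and_true]
    congr 2
    funext i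
    by_cases h : i = 0
    · subst h
      simp only [getCell, Store.tops, mk, if_true, Function.update_self]
      cases w <;> simp [I.uncell_cell]
    · simp [h]
  · rfl
  · by_cases h : j = 0
    · subst h
      simp [mk, put, Op.app, zinit, List.map_tail]
    · simp [mk, put, h, Op.app, zinit]

theorem push_right0 (s : P → List Γ) (c : List Γ) (L R : Fin (A.k + 1) → List Γ) (a : Γ) :
    Runs (.push (.inr (.right 0)) a) (mk s c L R) (mk s c L (Function.update R 0 (a :: R 0))) 1 :=
  (Runs.push _ _ _).conv (mk_update_right s c L R 0 (a :: R 0)) le_rfl

/-- Load both operands. -/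
def loadAll (x y out : P) : Prog (P ⊕ AReg A) Γ :=
  .seq (load I y out) (.seq (.push (.inr (.right 0)) (I.cell Symb.sep))
    (.seq (load I x out) (start I)))

theorem loadAll_runs {x y out : P} (hxy : x ≠ y) (hx : x ≠ out) (hy : y ≠ out)
    (u v : List Bool) (s : P → List Γ) (hsx : s x = u.map I.bit) (hsy : s y = v.map I.bit)
    (hso : s out = []) :
    Runs (loadAll I x y out) (own s)
      (put I (Function.update (Function.update (Function.update s x []) y []) out
        (List.replicate (u.length + v.length) (I.bit false)))
        (zinit A (mulInput u.reverse v.reverse))) (2 * (u.length + v.length) + 4) := by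
  rw [own_eq]
  have h1 := load_runs I hy v s [] (fun _ => []) (fun _ => []) hsy
  obtain ⟨s1, hs1⟩ : ∃ s1, s1 = Function.update (Function.update s y []) out
    (List.replicate v.length (I.bit false) ++ s out) := ⟨_, rfl⟩
  rw [← hs1] at h1
  have h3 := fun R => load_runs I hx u s1 [] (fun _ => []) R (by rw [hs1]; simp [hx, hxy, hsx])
  refine (h1.seq ((push_right0 _ _ _ _ _).seq (Runs.seq (c₂ := 1) (h3 _) ?_))).conv rfl ?_
  · have h4 := start_runs I (Function.update (Function.update (Function.update s x []) y []) out
        (List.replicate (u.length + v.length) (I.bit false)))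
        (mulInput u.reverse v.reverse : List (Symb A.E))
    convert h4 using 2
    · rw [hs1]
      funext q
      by_cases h : q = out
      · subst h
        simp [hso]
      · by_cases h' : q = x
        · subst h'; simp [h, hxy]
        · by_cases h'' : q = y
          · subst h''; simp [h, h']
          · simp [h, h', h'']
    · funext j
      by_cases h : j = 0
      · subst h; simp [mulInput, Function.comp_def]
      · simp [h]
  · omega

/-! ### The clock -/

/-- `j` steps of `A` -/
def ziter : ℕ → ZCfg A → Option (ZCfg A)
  | 0, z => some z
  | j + 1, z => (zstep z).bind (ziter j)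

theorem ziter_add (i j : ℕ) (z : ZCfg A) :
    ziter (i + j) z = (ziter i z).bind (ziter j) := by
  induction i generalizing z with
  | zero => simp [ziter]
  | succ i ih =>
    rw [show i + 1 + j = (i + j) + 1 by ring]
    simp only [ziter]
    cases zstep z with
    | none => rfl
    | some z' => simp [ih]

theorem zafter_eq (w : List (Symb A.E)) (t : ℕ) : zafter A w t = ziter t (zinit A w) := by
  induction t with
  | zero => rfl
  | succ t ih =>
    rw [ziter_add, zafter, ih]
    congr 1
    funext z
    simp only [ziter]
    cases zstep z <;> rfl

theorem ziter_running {j : ℕ} {z z' : ZCfg A} (h : ziter (j + 1) z = some z') :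
    (A.δ z.q z.h).isSome := by
  simp only [ziter, Option.bind_eq_some_iff] at h
  obtain ⟨z1, h1, -⟩ := h
  rw [zstep, Option.map_eq_some_iff] at h1
  obtain ⟨a, ha, -⟩ := h1
  simp [ha]

/-- Run `A` while it has not halted and the ruler `clk` lasts; the ticks go to `clk'`. -/
def inner (clk clk' : P) : Prog (P ⊕ AReg A) Γ :=
  .loop (fun t => running I t && (t (.inl clk)).isSome) (.seq (stepA I) (.mv (.inl clk) (.inl clk')))

theorem put_inl (s : P → List Γ) (z : ZCfg A) (p : P) : put I s z (.inl p) = s p := rfl

theorem put_update (s : P → List Γ) (z : ZCfg A) (p : P) (l : List Γ) :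
    Function.update (put I s z) (.inl p) l = put I (Function.update s p l) z := by
  rw [put_eq, mk_update_inl, put_eq]

theorem inner_runs {clk clk' : P} (hc : clk ≠ clk') (j : ℕ) (s : P → List Γ) (z z' : ZCfg A)
    (hj : j ≤ (s clk).length) (hz : ziter j z = some z')
    (hstop : j = (s clk).length ∨ A.δ z'.q z'.h = none) :
    Runs (inner I clk clk') (put I s z)
      (put I (Function.update (Function.update s clk ((s clk).drop j)) clk'
        (((s clk).take j).reverse ++ s clk')) z') (4 * j + 1) := by
  induction j generalizing s z with
  | zero =>
    simp only [ziter, Option.some.injEq] at hz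
    subst hz
    refine (Runs.loop_stop ?_).conv ?_ (by simp)
    · rw [running_put]
      rcases hstop with h | h
      · have : s clk = [] := List.length_eq_zero_iff.1 h.symm
        simp [Store.tops, put, this]
      · simp [h]
    · congr 1
      funext q
      by_cases h : q = clk'
      · subst h; simp
      · by_cases h' : q = clk
        · subst h'; simp [h]
        · simp [h, h']
  | succ j ih =>
    have hr := ziter_running hz
    simp only [ziter, Option.bind_eq_some_iff] at hz
    obtain ⟨z1, h1, h2⟩ := hz
    cases hcl : s clk with
    | nil => rw [hcl] at hj; simp at hj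
    | cons a l =>
      have e1 := stepA_runs I s h1
      have e2 := Runs.mv_cons (R := P ⊕ AReg A) (r := .inl clk) (q := .inl clk')
        (by simpa using hc) (s := put I s z1) (a := a) (l := l) hcl
      rw [put_update, put_update, put_inl] at e2
      have e3 := ih (Function.update (Function.update s clk l) clk' (a :: s clk')) z1
        (by simp [hc]; rw [hcl] at hj; simpa using hj) h2 (by
          rw [hcl] at hstop
          simp only [hc, ne_eq, not_false_eq_true, Function.update_of_ne, Function.update_self]
          rcases hstop with h | h
          · left; simpa using h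
          · right; exact h)
      refine (Runs.loop_step ?_ (e1.seq e2) e3).conv ?_ (by omega)
      · rw [running_put, hr]
        simp [Store.tops, put, hcl]
      · congr 1
        funext q
        by_cases h : q = clk'
        · subst h; simp [hc]
        · by_cases h' : q = clk
          · subst h'; simp [h]
          · simp [h, h']

/-- Run `A` for at most `|clk| * |ep|` steps. -/
def outer (clk clk' ep ep' : P) : Prog (P ⊕ AReg A) Γ :=
  .loop (fun t => running I t && (t (.inl ep)).isSome)
    (.seq (.mv (.inl ep) (.inl ep')) (.seq (inner I clk clk') (.flip (.inl clk') (.inl clk))))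

/-- one epoch -/
theorem epoch_runs {clk clk' ep ep' : P} (hc : clk ≠ clk') (he : ep ≠ ep')
    (h1 : ep ≠ clk) (h2 : ep ≠ clk') (h3 : ep' ≠ clk) (h4 : ep' ≠ clk') (i : ℕ)
    (s : P → List Γ) (z z' : ZCfg A) (a : Γ) (E : List Γ) (hE : s ep = a :: E)
    (hcl' : s clk' = []) (hi : i ≤ (s clk).length) (hz : ziter i z = some z')
    (hstop : i = (s clk).length ∨ A.δ z'.q z'.h = none) :
    Runs (.seq (.mv (.inl ep) (.inl ep')) (.seq (inner I clk clk') (.flip (.inl clk') (.inl clk))))
      (put I s z) (put I (Function.update (Function.update s ep E) ep' (a :: s ep')) z')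
      (6 * i + 3) := by
  have e1 := Runs.mv_cons (R := P ⊕ AReg A) (r := .inl ep) (q := .inl ep')
        (by simpa using he) (s := put I s z) (a := a) (l := E) hE
  rw [put_update, put_update, put_inl] at e1
  obtain ⟨s1, hs1⟩ : ∃ s1, s1 = Function.update (Function.update s ep E) ep' (a :: s ep') :=
    ⟨_, rfl⟩
  rw [← hs1] at e1 ⊢
  have c1 : s1 clk = s clk := by rw [hs1]; simp [h3.symm, h1.symm]
  have c2 : s1 clk' = [] := by rw [hs1]; simp [h4.symm, h2.symm, hcl']
  have e2 := inner_runs I hc i s1 z z' (by rw [c1]; exact hi) hz (by rw [c1]; exact hstop)
  have e3 := Runs.flip (R := P ⊕ AReg A) (Γ := Γ) (r := .inl clk') (q := .inl clk)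
    (by simpa using hc.symm) (put I (Function.update (Function.update s1 clk ((s1 clk).drop i)) clk'
        (((s1 clk).take i).reverse ++ s1 clk')) z')
  refine (e1.seq (e2.seq e3)).conv ?_ ?_
  · rw [put_inl, put_inl, put_update, put_update]
    congr 1
    funext q
    by_cases h : q = clk
    · subst h; simp [hc, c2]
    · by_cases h' : q = clk'
      · subst h'; simp [h, c2]
      · simp [h, h']
  · rw [put_inl]
    simp only [Function.update_self, c2, List.append_nil, List.length_reverse, List.length_take]
    have := Nat.min_le_left i (s1 clk).length
    omega

theorem ziter_le {i j : ℕ} {z z' : ZCfg A} (hij : i ≤ j) (h : ziter j z = some z') :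
    ∃ z1, ziter i z = some z1 ∧ ziter (j - i) z1 = some z' := by
  obtain ⟨k, rfl⟩ := Nat.exists_eq_add_of_le hij
  rw [ziter_add, Option.bind_eq_some_iff] at h
  obtain ⟨z1, h1, h2⟩ := h
  exact ⟨z1, h1, by rwa [Nat.add_sub_cancel_left]⟩

theorem outer_runs {clk clk' ep ep' : P} (hc : clk ≠ clk') (he : ep ≠ ep')
    (h1 : ep ≠ clk) (h2 : ep ≠ clk') (h3 : ep' ≠ clk) (h4 : ep' ≠ clk') (E : List Γ) (j N : ℕ)
    (hN : 1 ≤ N) (s : P → List Γ) (z z' : ZCfg A) (hE : s ep = E) (hcl : (s clk).length = N)
    (hcl' : s clk' = []) (hz : ziter j z = some z') (hh : A.δ z'.q z'.h = none) :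
    ∃ a ≤ min j (N * E.length), ∃ z'', ziter (min j (N * E.length)) z = some z'' ∧
      Runs (outer I clk clk' ep ep') (put I s z)
        (put I (Function.update (Function.update s ep (E.drop a)) ep'
          ((E.take a).reverse ++ s ep')) z'') (10 * min j (N * E.length) + 1) := by
  induction E generalizing s z j with
  | nil =>
    refine ⟨0, Nat.zero_le _, z, by simp [ziter], ?_⟩
    refine (Runs.loop_stop (by simp [Store.tops, put, hE])).conv ?_ (by simp)
    congr 1
    funext q
    by_cases h : q = ep'
    · subst h; simp
    · by_cases h' : q = ep
      · subst h'; simp [h, hE]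
      · simp [h, h']
  | cons e E ih =>
    rcases Nat.eq_zero_or_pos j with rfl | hj
    · refine ⟨0, Nat.zero_le _, z, by simp [ziter], ?_⟩
      simp only [ziter, Option.some.injEq] at hz
      subst hz
      refine (Runs.loop_stop (by rw [running_put]; simp [hh])).conv ?_ (by simp)
      congr 1
      funext q
      by_cases h : q = ep'
      · subst h; simp
      · by_cases h' : q = ep
        · subst h'; simp [h, hE]
        · simp [h, h']
    · obtain ⟨z1, hz1, hz2⟩ := ziter_le (Nat.min_le_left j N) hz
      have hi1 : 1 ≤ min j N := by omega
      have e1 := epoch_runs I hc he h1 h2 h3 h4 (min j N) s z z1 e E hE hcl'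
        (by rw [hcl]; exact Nat.min_le_right _ _) hz1 (by
          rw [hcl]
          rcases Nat.le_total j N with h | h
          · right
            rw [Nat.min_eq_left h, Nat.sub_self] at hz2
            simp only [ziter, Option.some.injEq] at hz2
            rw [hz2]; exact hh
          · left; exact Nat.min_eq_right h)
      obtain ⟨a, ha, z'', hz'', e2⟩ := ih (j - min j N)
        (Function.update (Function.update s ep E) ep' (e :: s ep')) z1 (by simp [he])
        (by simp [h3.symm, h1.symm, hcl]) (by simp [h4.symm, h2.symm, hcl']) hz2
      have hm : min j N + min (j - min j N) (N * E.length) = min j (N * (e :: E).length) := by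
        rw [List.length_cons, Nat.mul_succ]
        rcases Nat.le_total j N with h | h
        · rw [Nat.min_eq_left h, Nat.min_eq_left (by omega)]
          omega
        · rw [Nat.min_eq_right h]
          omega
      refine ⟨a + 1, by omega, z'', ?_, ?_⟩
      · rw [← hm, ziter_add, hz1]
        exact hz''
      · refine (Runs.loop_step ?_ e1 e2).conv ?_ (by omega)
        · rw [running_put]
          have : (A.δ z.q z.h).isSome := by
            obtain ⟨k, rfl⟩ : ∃ k, j = k + 1 := ⟨j - 1, by omega⟩
            exact ziter_running hz
          simp [this, Store.tops, put, hE]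
        · congr 1
          funext q
          by_cases h : q = ep'
          · subst h; simp [he]
          · by_cases h' : q = ep
            · subst h'; simp [h]
            · simp [h, h']

/-! ### Reading the output -/

/-- Push the scanned symbol of the output tape on its right stack, and move the left stack there. -/
def rewind : Prog (P ⊕ AReg A) Γ :=
  .seq (.act fun t r =>
      match r with
      | .inl _ => .nop
      | .inr .ctl => .nop
      | .inr (.left _) => .nop
      | .inr (.right i) => if i = A.out then
          (match (t (.inr .ctl)).bind I.unctl with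
            | none => .nop
            | some (_, h) => .push (I.cell (h A.out))) else .nop)
    (.flip (.inr (.left A.out)) (.inr (.right A.out)))

theorem rewind_runs (s : P → List Γ) (z : ZCfg A) :
    Runs (rewind I) (put I s z) (mk s [I.ctl (z.q, z.h)]
      (Function.update (fun i => (z.L i).map I.cell) A.out [])
      (Function.update (fun i => (z.R i).map I.cell) A.out
        (((z.L A.out).reverse ++ z.h A.out :: z.R A.out).map I.cell)))
      (2 * (z.L A.out).length + 2) := by
  have e1 : Runs (Prog.act fun (t : P ⊕ AReg A → Option Γ) r =>
      match r with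
      | .inl _ => .nop
      | .inr .ctl => .nop
      | .inr (.left _) => .nop
      | .inr (.right i) => if i = A.out then
          (match (t (.inr .ctl)).bind I.unctl with
            | none => .nop
            | some (_, h) => .push (I.cell (h A.out))) else .nop) (put I s z)
      (mk s [I.ctl (z.q, z.h)] (fun i => (z.L i).map I.cell)
        (Function.update (fun i => (z.R i).map I.cell) A.out
          (I.cell (z.h A.out) :: (z.R A.out).map I.cell))) 1 := by
    refine (Runs.act _ _).conv ?_ le_rfl
    have e0 : ((put I s z).tops (.inr .ctl)).bind I.unctl = some (z.q, z.h) := by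
      simp [Store.tops, put, I.unctl_ctl]
    funext r
    rcases r with q | _ | i | i
    · rfl
    · rfl
    · rfl
    · by_cases h : i = A.out
      · subst h
        simp only [mk, put, if_true, e0, Op.app, Function.update_self]
      · simp [mk, put, h, Op.app]
  have e2 := Runs.flip (R := P ⊕ AReg A) (Γ := Γ) (r := .inr (.left A.out))
    (q := .inr (.right A.out)) (by simp) (mk s [I.ctl (z.q, z.h)] (fun i => (z.L i).map I.cell)
        (Function.update (fun i => (z.R i).map I.cell) A.out
          (I.cell (z.h A.out) :: (z.R A.out).map I.cell)))
  refine (e1.seq e2).conv ?_ ?_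
  · rw [mk_update_left, mk_update_right]
    congr 1
    funext i
    by_cases h : i = A.out
    · subst h; simp [mk]
    · simp [h]
  · simp only [mk, List.length_map]
    omega

/-- Is a bit seen on the right stack of the output tape? -/
def seesBit (t : P ⊕ AReg A → Option Γ) : Bool :=
  match getCell I (t (.inr (.right A.out))) with
  | some (Symb.bit _) => true
  | _ => false

/-- Move the bits of the right stack of the output tape to `out`. -/
def readout (out : P) : Prog (P ⊕ AReg A) Γ :=
  .loop (seesBit I) (.act fun t r =>
      match r with
      | .inl p => if p = out then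
          (match getCell I (t (.inr (.right A.out))) with
            | some (Symb.bit b) => .push (I.bit b)
            | _ => .nop) else .nop
      | .inr .ctl => .nop
      | .inr (.left _) => .nop
      | .inr (.right i) => if i = A.out then .pop else .nop)

theorem readout_runs (out : P) (o : List Bool) (m : ℕ) (s : P → List Γ) (c : List Γ)
    (L R : Fin (A.k + 1) → List Γ)
    (hR : R A.out = (o.map Symb.bit ++ List.replicate m Symb.blank).map I.cell) :
    Runs (readout I out) (mk s c L R)
      (mk (Function.update s out (o.reverse.map I.bit ++ s out)) c L
        (Function.update R A.out ((List.replicate m Symb.blank).map I.cell))) (2 * o.length + 1) := by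
  induction o generalizing s R with
  | nil =>
    refine (Runs.loop_stop ?_).conv ?_ (by simp)
    · simp only [seesBit, Store.tops, mk, hR]
      cases m <;> simp [getCell, I.uncell_cell, List.replicate_succ]
    · simp only [List.map_nil, List.nil_append] at hR
      rw [← hR]
      simp
  | cons b o ih =>
    have e0 : getCell I ((mk s c L R).tops (.inr (.right A.out))) = some (Symb.bit b) := by
      simp [getCell, Store.tops, mk, hR, I.uncell_cell]
    have e2 := ih (Function.update s out (I.bit b :: s out))
      (Function.update R A.out ((o.map Symb.bit ++ List.replicate m Symb.blank).map I.cell))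
      (by simp)
    refine (Runs.loop_step (c₁ := 1) (by simp only [seesBit, e0]) ?_ e2).conv ?_ ?_
    · refine (Runs.act _ _).conv ?_ le_rfl
      funext r
      rcases r with q | _ | i | i
      · by_cases h : q = out
        · subst h
          simp only [mk, if_true, e0, Op.app, Function.update_self]
        · simp [mk, h, Op.app]
      · rfl
      · rfl
      · by_cases h : i = A.out
        · subst h
          simp [mk, Op.app, hR]
        · simp [mk, h, Op.app]
    · congr 1
      · funext q
        by_cases h : q = out
        · subst h; simp
        · simp [h]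
      · simp
    · simp only [List.length_cons]; omega

/-! ### Cleaning -/

/-- Empty all the stacks of `A`. -/
def clean : Prog (P ⊕ AReg A) Γ :=
  .loop (fun t => (t (.inr .ctl)).isSome ||
      decide (∃ i, (t (.inr (.left i))).isSome ∨ (t (.inr (.right i))).isSome))
    (.act fun _ r => match r with
      | .inl _ => .nop
      | .inr _ => .pop)

theorem clean_runs (B : ℕ) (s : P → List Γ) (c : List Γ) (L R : Fin (A.k + 1) → List Γ)
    (hc : c.length ≤ B) (hL : ∀ i, (L i).length ≤ B) (hR : ∀ i, (R i).length ≤ B) :
    Runs (clean : Prog (P ⊕ AReg A) Γ) (mk s c L R) (own s) (2 * B + 1) := by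
  induction B generalizing c L R with
  | zero =>
    have h1 : c = [] := List.length_eq_zero_iff.1 (by omega)
    have h2 : ∀ i, L i = [] := fun i => List.length_eq_zero_iff.1 (by have := hL i; omega)
    have h3 : ∀ i, R i = [] := fun i => List.length_eq_zero_iff.1 (by have := hR i; omega)
    refine (Runs.loop_stop ?_).conv ?_ (by simp)
    · simp [Store.tops, mk, h1, h2, h3]
    · rw [own_eq, h1]
      congr 1
      · funext i; exact h2 i
      · funext i; exact h3 i
  | succ B ih =>
    by_cases hstop : ((mk s c L R : Store (P ⊕ AReg A) Γ).tops (.inr .ctl)).isSome ||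
      decide (∃ i, ((mk s c L R : Store (P ⊕ AReg A) Γ).tops (.inr (.left i))).isSome ∨
        ((mk s c L R : Store (P ⊕ AReg A) Γ).tops (.inr (.right i))).isSome)
    · refine (Runs.loop_step hstop (c₁ := 1) (s₁ := mk s c.tail (fun i => (L i).tail)
        (fun i => (R i).tail)) ?_ (ih _ _ _ ?_ ?_ ?_)).conv rfl (by omega)
      · refine (Runs.act _ _).conv ?_ le_rfl
        funext r
        rcases r with q | _ | i | i <;> rfl
      · simp; omega
      · intro i; have := hL i; simp; omega
      · intro i; have := hR i; simp; omega
    · have h0 := hstop
      simp only [Store.tops, mk, Bool.or_eq_true, decide_eq_true_eq, not_or, not_exists,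
        Option.isSome_iff_ne_none, ne_eq, List.head?_eq_none_iff, not_not] at hstop
      refine (Runs.loop_stop (by simpa using h0)).conv ?_ (by omega)
      rw [own_eq, hstop.1]
      congr 1
      · funext i; exact (hstop.2 i).1
      · funext i; exact (hstop.2 i).2

end Vale.Agent.P338.Sim
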