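import Vale.Agent.P338.CoreSpec
import Vale.Agent.P338.H933.Basic
import Vale.Agent.P338.H463.Sim

/-!
# P338, one call of the multiplying machine `A`, with a clock (helper463)
-/

namespace Vale.Agent.P338.Sim

open Vale.Agent.P338

set_option linter.unusedSectionVars false

/-! ### Bit lists -/

theorem val_append (x y : List Bool) : val (x ++ y) = val x * 2 ^ y.length + val y := by
  induction y using List.reverseRecOn with
  | nil => simp [val]
  | append_singleton y b ih =>
    rw [← List.append_assoc]
    have h : ∀ z : List Bool, val (z ++ [b]) = 2 * val z + b.toNat := fun z => by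
      simp [val, List.foldl_append]
    rw [h, h, ih, List.length_append, List.length_singleton, pow_succ]
    ring

theorem val_reverse (u : List Bool) : val u.reverse = lval u := by
  induction u with
  | nil => rfl
  | cons b u ih =>
    rw [List.reverse_cons, val_append, ih]
    simp [val, lval]
    ring

theorem lbits_getElem? (w x i : ℕ) :
    (lbits w x)[i]? = if i < w then some (x.testBit i) else none := by
  induction w generalizing x i with
  | zero => simp [lbits]
  | succ w ih =>
    rw [lbits]
    cases i with
    | zero =>
      simp only [List.getElem?_cons_zero, Nat.zero_lt_succ, if_true, Nat.testBit_zero]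
      rfl
    | succ i =>
      rw [List.getElem?_cons_succ, ih]
      simp only [Nat.succ_lt_succ_iff, Nat.testBit_succ]

theorem lbits_length (w x : ℕ) : (lbits w x).length = w := by
  induction w generalizing x with
  | zero => rfl
  | succ w ih => simp [lbits, ih]

theorem bin_reverse (k z : ℕ) : (bin k z).reverse = lbits k z := by
  refine List.ext_getElem? fun i => ?_
  rw [lbits_getElem?]
  split_ifs with h
  · rw [List.getElem?_reverse (by simpa [bin] using h)]
    rw [List.getElem?_eq_getElem (by simp [bin]; omega)]
    simp only [bin, List.getElem_ofFn, List.length_ofFn]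
    congr 2
    omega
  · rw [List.getElem?_eq_none]
    simpa [bin] using h

/-! ### The call -/

variable {A : Machine} {P Γ : Type} [DecidableEq P] (I : SymI A Γ)

/-- One call: `x`, `y` hold the operands (least significant bit on top), `out` receives the
product.  `A` is run for at most `|clk| * |ep|` steps; if it does not halt in this time, `out`
receives zeros and `flag` is set. -/
def callA (x y out clk clk' ep ep' flag : P) : Prog (P ⊕ AReg A) Γ :=
  .seq (loadAll I x y out) (.seq (outer I clk clk' ep ep') (.seq (.flip (.inl ep') (.inl ep))
    (.seq (.branch fun t => if running I t then .push (.inl flag) I.tick else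
      .seq (.clear (.inl out)) (.seq (rewind I) (readout I out))) clean)))

theorem zinit_len (w : List (Symb A.E)) (i : Fin (A.k + 1)) : (zinit A w).len i ≤ w.length := by
  by_cases hi : i = 0
  · simp [ZCfg.len, zinit, hi]
  · simp [ZCfg.len, zinit, hi]

theorem ziter_len {j : ℕ} {z z' : ZCfg A} (h : ziter j z = some z') (i : Fin (A.k + 1)) :
    z'.len i ≤ z.len i + j := by
  induction j generalizing z with
  | zero =>
    simp only [ziter, Option.some.injEq] at h
    subst h; simp
  | succ j ih =>
    simp only [ziter, Option.bind_eq_some_iff] at h
    obtain ⟨z1, h1, h2⟩ := h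
    have := ih h2
    have := zstep_len h1 i
    omega

theorem callA_runs (hA : Multiplies A) {x y out clk clk' ep ep' flag : P}
    (hnd : [x, y, out, clk, clk', ep, ep', flag].Nodup) {m : ℕ} (hm : 1 ≤ m) (u v : List Bool)
    (hu : u.length = m) (hv : v.length = m) (s : P → List Γ) (hx : s x = u.map I.bit)
    (hy : s y = v.map I.bit) (hout : s out = []) (hclk : 1 ≤ (s clk).length)
    (hclk' : s clk' = []) (hep' : s ep' = []) (hflag : s flag = []) :
    ∃ t, t ≤ mulTime A m ∧
      ((t ≤ (s clk).length * (s ep).length ∧
        Runs (callA I x y out clk clk' ep ep' flag) (own s)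
          (own (Function.update (Function.update (Function.update s x []) y []) out
            ((mulL m u v).map I.bit)))
          (16 * min t ((s clk).length * (s ep).length) + 40 * m)) ∨
      ((s clk).length * (s ep).length < t ∧
        Runs (callA I x y out clk clk' ep ep' flag) (own s)
          (own (Function.update (Function.update (Function.update (Function.update s x []) y [])
            out ((zer (2 * m)).map I.bit)) flag [I.tick]))
          (16 * min t ((s clk).length * (s ep).length) + 40 * m))) := by
  simp only [List.nodup_cons, List.mem_cons, List.not_mem_nil, or_false, not_or, not_false_eq_true,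
    List.nodup_nil, and_true] at hnd
  obtain ⟨⟨a1, a2, a3, a4, a5, a6, a7⟩, ⟨b2, b3, b4, b5, b6, b7⟩, ⟨c3, c4, c5, c6, c7⟩,
    ⟨d4, d5, d6, d7⟩, ⟨e5, e6, e7⟩, ⟨f6, f7⟩, g7⟩ := hnd
  have hur : u.reverse.length = m := by simpa using hu
  have hvr : v.reverse.length = m := by simpa using hv
  obtain ⟨cf, h1, h2⟩ := (hA m hm _ _ hur hvr).haltsAt_runTime
  have ht := le_mulTime_of (A := A) _ _ hur hvr
  obtain ⟨t, htd⟩ : ∃ t, t = A.runTime (mulInput u.reverse v.reverse) := ⟨_, rfl⟩
  rw [← htd] at h1 ht
  refine ⟨t, ht, ?_⟩
  obtain ⟨zf, hz, hr⟩ := rep_after h1.1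
  have hh := hr.halt h1.2
  rw [zafter_eq] at hz
  obtain ⟨N, hN⟩ : ∃ N, N = (s clk).length := ⟨_, rfl⟩
  obtain ⟨E, hE⟩ : ∃ E, E = s ep := ⟨_, rfl⟩
  rw [← hN, ← hE]
  -- load
  have r1 := loadAll_runs I a1 a2 b2 u v s hx hy hout
  obtain ⟨s1, hs1⟩ : ∃ s1, s1 = Function.update (Function.update (Function.update s x []) y []) out
        (List.replicate (u.length + v.length) (I.bit false)) := ⟨_, rfl⟩
  rw [← hs1] at r1
  have k1 : s1 ep = E := by rw [hs1, hE]; simp [Ne.symm a5, Ne.symm b5, Ne.symm c5]
  have k2 : s1 clk = s clk := by rw [hs1]; simp [Ne.symm a3, Ne.symm b3, Ne.symm c3]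
  have k3 : s1 clk' = [] := by rw [hs1]; simp [Ne.symm a4, Ne.symm b4, Ne.symm c4, hclk']
  have k4 : s1 ep' = [] := by rw [hs1]; simp [Ne.symm a6, Ne.symm b6, Ne.symm c6, hep']
  -- run
  obtain ⟨a, ha, z, hz1, r2⟩ := outer_runs I d4 f6 (Ne.symm d5) (Ne.symm e5) (Ne.symm d6)
    (Ne.symm e6) E t N (by rw [hN]; exact hclk) s1 _ zf k1 (by rw [k2, hN]) k3 hz hh
  obtain ⟨i, hi⟩ : ∃ i, i = min t (N * E.length) := ⟨_, rfl⟩
  rw [← hi] at ha hz1 r2 ⊢
  rw [k4, List.append_nil] at r2
  have r3 := Runs.flip (R := P ⊕ AReg A) (Γ := Γ) (r := .inl ep') (q := .inl ep)
    (by simpa using Ne.symm f6)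
    (put I (Function.update (Function.update s1 ep (E.drop a)) ep' (E.take a).reverse) z)
  have e3 : Function.update (Function.update
      (put I (Function.update (Function.update s1 ep (E.drop a)) ep' (E.take a).reverse) z)
      (.inl ep') []) (.inl ep)
      ((put I (Function.update (Function.update s1 ep (E.drop a)) ep' (E.take a).reverse) z
        (.inl ep')).reverse ++
        put I (Function.update (Function.update s1 ep (E.drop a)) ep' (E.take a).reverse) z
        (.inl ep)) = put I s1 z := by
    rw [put_inl, put_inl, put_update, put_update]
    congr 1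
    funext q
    by_cases h : q = ep
    · subst h; simp [f6, k1]
    · by_cases h' : q = ep'
      · subst h'; simp [h, k4]
      · simp [h, h']
  rw [e3, put_inl] at r3
  have c3' : 2 * (Function.update (Function.update s1 ep (E.drop a)) ep'
      (E.take a).reverse ep').length + 1 ≤ 2 * i + 1 := by
    simp only [Function.update_self, List.length_reverse, List.length_take]
    omega
  -- the final part
  have hlen : ∀ k, z.len k ≤ 2 * m + 1 + i := fun k => by
    have h1 := ziter_len hz1 k
    have h2 := zinit_len (mulInput u.reverse v.reverse : List (Symb A.E)) k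
    rw [length_mulInput, hur, hvr] at h2
    omega
  have hLl : ∀ k, (z.L k).length ≤ 2 * m + 1 + i := fun k => by
    have := hlen k; simp only [ZCfg.len] at this; omega
  have hRl : ∀ k, (z.R k).length ≤ 2 * m + 1 + i := fun k => by
    have := hlen k; simp only [ZCfg.len] at this; omega
  have hNE : (A.δ z.q z.h = none ∧ z = zf ∧ t ≤ N * E.length) ∨
      ((A.δ z.q z.h).isSome ∧ N * E.length < t) := by
    rcases Nat.lt_or_ge (N * E.length) t with h | h
    · right
      have h3 : i = N * E.length := by rw [hi]; exact Nat.min_eq_right h.le
      obtain ⟨z1, h4, h5⟩ := ziter_le (i := i) (by omega) hz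
      rw [hz1] at h4
      simp only [Option.some.injEq] at h4
      subst h4
      obtain ⟨k, hk⟩ : ∃ k, t - i = k + 1 := ⟨t - i - 1, by omega⟩
      rw [hk] at h5
      exact ⟨ziter_running h5, h⟩
    · left
      have h3 : i = t := by rw [hi]; exact Nat.min_eq_left h
      rw [h3, hz] at hz1
      simp only [Option.some.injEq] at hz1
      subst hz1
      exact ⟨hh, rfl, h⟩
  rcases hNE with ⟨n1, n2, n3⟩ | ⟨n1, n2⟩
  · left
    refine ⟨n3, ?_⟩
    have r4 := Runs.clear (R := P ⊕ AReg A) (Γ := Γ) (.inl out) (put I s1 z)
    rw [put_update, put_inl] at r4
    have r5 := rewind_runs I (Function.update s1 out []) z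
    subst n2
    obtain ⟨m', hm'⟩ := out_word hr h2
    have r6 := readout_runs I out (bin (2 * m) (val u.reverse * val v.reverse)) m'
      (Function.update s1 out []) [I.ctl (z.q, z.h)]
      (Function.update (fun i => (z.L i).map I.cell) A.out [])
      (Function.update (fun i => (z.R i).map I.cell) A.out
        (((z.L A.out).reverse ++ z.h A.out :: z.R A.out).map I.cell))
      (by rw [Function.update_self, hm'])
    have hm'l : m' ≤ 2 * m + 2 + i := by
      have := congrArg List.length hm'
      have h5 := hlen A.out
      simp only [ZCfg.len] at h5
      simp only [List.length_append, List.length_reverse, List.length_cons, List.length_map,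
        List.length_replicate, length_bin] at this
      omega
    have r7 := clean_runs (2 * m + 2 + i) (Function.update (Function.update s1 out []) out
      ((bin (2 * m) (val u.reverse * val v.reverse)).reverse.map I.bit ++
        Function.update s1 out [] out)) [I.ctl (z.q, z.h)]
      (Function.update (fun i => (z.L i).map I.cell) A.out [])
      (Function.update (Function.update (fun i => (z.R i).map I.cell) A.out
        (((z.L A.out).reverse ++ z.h A.out :: z.R A.out).map I.cell)) A.out
          ((List.replicate m' Symb.blank).map I.cell)) (by simp; omega) (fun k => by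
            by_cases hk : k = A.out
            · subst hk; simp
            · have := hLl k
              simp only [hk, ne_eq, not_false_eq_true, Function.update_of_ne, List.length_map]
              omega) (fun k => by
            by_cases hk : k = A.out
            · subst hk; simpa using hm'l
            · have := hRl k
              simp only [hk, ne_eq, not_false_eq_true, Function.update_of_ne, List.length_map]
              omega)
    have r8 : Runs (Prog.branch fun t => if running I t then .push (.inl flag) I.tick else
        .seq (.clear (.inl out)) (.seq (rewind I) (readout I out))) (put I s1 z)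
        _ _ := Runs.branch (f := fun t => if running I t then .push (.inl flag) I.tick else
        .seq (.clear (.inl out)) (.seq (rewind I) (readout I out))) (by
          rw [if_neg (by rw [running_put, n1]; simp)]
          exact r4.seq (r5.seq r6))
    refine (r1.seq (r2.seq (r3.seq (r8.seq r7)))).conv ?_ ?_
    · congr 1
      rw [bin_reverse, val_reverse, val_reverse, hs1]
      funext q
      by_cases h : q = out
      · subst h; simp [mulL]
      · simp [h]
    · have h6 : (s1 out).length = 2 * m := by rw [hs1]; simp [hu, hv]; ring
      have h7 := hLl A.out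
      rw [length_bin, h6, hu, hv]
      omega
  · right
    refine ⟨n2, ?_⟩
    have r4 := Runs.push (R := P ⊕ AReg A) (Γ := Γ) (.inl flag) I.tick (put I s1 z)
    rw [put_update, put_inl, put_eq] at r4
    have r7 := clean_runs (2 * m + 2 + i) (Function.update s1 flag (I.tick :: s1 flag))
      [I.ctl (z.q, z.h)] (fun i => (z.L i).map I.cell) (fun i => (z.R i).map I.cell)
      (by simp; omega) (fun k => by have := hLl k; simp only [List.length_map]; omega)
      (fun k => by have := hRl k; simp only [List.length_map]; omega)
    have r8 : Runs (Prog.branch fun t => if running I t then .push (.inl flag) I.tick else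
        .seq (.clear (.inl out)) (.seq (rewind I) (readout I out))) (put I s1 z)
        _ _ := Runs.branch (f := fun t => if running I t then .push (.inl flag) I.tick else
        .seq (.clear (.inl out)) (.seq (rewind I) (readout I out))) (by
          rw [if_pos (by rw [running_put, n1])]
          exact r4)
    refine (r1.seq (r2.seq (r3.seq (r8.seq r7)))).conv ?_ ?_
    · congr 1
      rw [hs1]
      funext q
      by_cases h : q = flag
      · subst h; simp [Ne.symm a7, Ne.symm b7, Ne.symm c7, hflag]
      · by_cases h' : q = out
        · subst h'
          simp [h, zer, hu, hv]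
          congr 1
          ring
        · simp [h, h']
    · omega

end Vale.Agent.P338.Sim
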