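import Vale.Agent.P338.Reg
import Vale.Agent.P338.H463.Call

/-!
# P338, the call of the multiplying machine in the conventions of the main program (helper463)

`callM A : Prog (Reg ⊕ AReg A) (Bool ⊕ ASym A)`: operands in `cx`, `cy` (least significant bit on
top), product in `cz`, clock `rM` (scratch `rM'`), epochs `rE` (scratch `rE'`), flag `fl`.
-/

namespace Vale.Agent.P338.Sim

open Vale.Agent.P338

set_option linter.unusedSectionVars false

/-- Symbols used by the simulation of `A`. -/
inductive ASym (A : Machine) : Type
  | cell (a : Symb A.E)
  | ctl (c : A.Q × (Fin (A.k + 1) → Symb A.E))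

instance (E : Type) [Finite E] : Finite (Symb E) := by
  refine Finite.of_injective (β := Option (Option (Bool ⊕ E))) (fun a => match a with
    | .blank => none
    | .sep => some none
    | .bit b => some (some (.inl b))
    | .extra e => some (some (.inr e))) fun a b h => ?_
  cases a <;> cases b <;> simp_all

instance (A : Machine) : Finite (ASym A) := by
  haveI := A.finQ
  haveI := A.finE
  refine Finite.of_injective (β := Symb A.E ⊕ (A.Q × (Fin (A.k + 1) → Symb A.E)))
    (fun a => match a with
    | .cell a => .inl a
    | .ctl c => .inr c) fun a b h => ?_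
  cases a <;> cases b <;> simp_all

instance (A : Machine) : Finite (AReg A) := by
  refine Finite.of_injective (β := Option (Fin (A.k + 1) ⊕ Fin (A.k + 1)))
    (fun a => match a with
    | .ctl => none
    | .left i => some (.inl i)
    | .right i => some (.inr i)) fun a b h => ?_
  cases a <;> cases b <;> simp_all

/-- The alphabet `Bool ⊕ ASym A`. -/
def symI (A : Machine) : SymI A (Bool ⊕ ASym A) where
  tick := .inl false
  bit := .inl
  cell a := .inr (.cell a)
  ctl c := .inr (.ctl c)
  unbit := Sum.getLeft?
  uncell
    | .inr (.cell a) => some a
    | _ => none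
  unctl
    | .inr (.ctl c) => some c
    | _ => none
  unbit_bit _ := rfl
  uncell_cell _ := rfl
  unctl_ctl _ := rfl

/-- The call of `A` in the main program. -/
def callM (A : Machine) : Prog (Reg ⊕ AReg A) (Bool ⊕ ASym A) :=
  callA (symI A) .cx .cy .cz .rM .rM' .rE .rE' .fl

theorem own_liftStore {A : Machine} (s : Store Reg Bool) :
    (own (fun r => (s r).map Sum.inl) : Store (Reg ⊕ AReg A) (Bool ⊕ ASym A)) =
      liftStore s (fun _ => []) := by
  funext r
  rcases r with q | r <;> rfl

theorem map_update (s : Store Reg Bool) (r : Reg) (l : List Bool) {Z : Type} :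
    Function.update (fun r => (s r).map (Sum.inl : Bool → Bool ⊕ Z)) r (l.map Sum.inl) =
      fun q => (Function.update s r l q).map Sum.inl := by
  funext q
  by_cases h : q = r
  · subst h; simp
  · simp [h]

/-- Specification of the call.  `t` is the running time of `A` on this input; the first case is
success, the second one is time-out. -/
theorem callM_spec {A : Machine} (hA : Multiplies A) {m : ℕ} (hm : 1 ≤ m) (s : Store Reg Bool)
    (hx : (s .cx).length = m) (hy : (s .cy).length = m) (hz : s .cz = [])
    (hM : (s .rM).length = m) (hM' : s .rM' = []) (hE' : s .rE' = []) (hfl : s .fl = []) :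
    ∃ t, t ≤ mulTime A m ∧
      ((t ≤ m * (s .rE).length ∧
        Runs (callM A) (liftStore s (fun _ => []))
          (liftStore (Function.update (Function.update (Function.update s .cx []) .cy []) .cz
            (mulL m (s .cx) (s .cy))) (fun _ => []))
          (16 * min t (m * (s .rE).length) + 40 * m)) ∨
      (m * (s .rE).length < t ∧
        Runs (callM A) (liftStore s (fun _ => []))
          (liftStore (Function.update (Function.update (Function.update (Function.update s
            .cx []) .cy []) .cz (zer (2 * m))) .fl [false]) (fun _ => []))
          (16 * min t (m * (s .rE).length) + 40 * m))) := by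
  have h := callA_runs (symI A) hA (x := Reg.cx) (y := .cy) (out := .cz) (clk := .rM)
    (clk' := .rM') (ep := .rE) (ep' := .rE') (flag := .fl) (by decide) hm (s .cx) (s .cy) hx hy
    (fun r => (s r).map Sum.inl) rfl rfl (by simp [hz]) (by simp [hM, hm]) (by simp [hM'])
    (by simp [hE']) (by simp [hfl])
  simp only [List.length_map, hM] at h
  have e1 : ∀ (s : Store Reg Bool) (r : Reg), Function.update
      (fun r => (s r).map (Sum.inl : Bool → Bool ⊕ ASym A)) r [] =
      fun q => (Function.update s r [] q).map Sum.inl := fun s r => map_update s r []
  have e2 : ∀ (s : Store Reg Bool) (r : Reg), Function.update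
      (fun r => (s r).map (Sum.inl : Bool → Bool ⊕ ASym A)) r [(symI A).tick] =
      fun q => (Function.update s r [false] q).map Sum.inl := fun s r => map_update s r [false]
  have e3 : ∀ (s : Store Reg Bool) (r : Reg) (l : List Bool), Function.update
      (fun r => (s r).map (Sum.inl : Bool → Bool ⊕ ASym A)) r (l.map (symI A).bit) =
      fun q => (Function.update s r l q).map Sum.inl := fun s r l => map_update s r l
  simp only [e1, e2, e3, own_liftStore] at h
  exact h

/-- The same with `mulTime` instead of `t`: the cost is at most
`16 * min (mulTime A m) (m * |rE|) + 40 * m`, and time-out happens only if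
`m * |rE| < mulTime A m`. -/
theorem callM_spec' {A : Machine} (hA : Multiplies A) {m : ℕ} (hm : 1 ≤ m) (s : Store Reg Bool)
    (hx : (s .cx).length = m) (hy : (s .cy).length = m) (hz : s .cz = [])
    (hM : (s .rM).length = m) (hM' : s .rM' = []) (hE' : s .rE' = []) (hfl : s .fl = []) :
    Runs (callM A) (liftStore s (fun _ => []))
        (liftStore (Function.update (Function.update (Function.update s .cx []) .cy []) .cz
          (mulL m (s .cx) (s .cy))) (fun _ => []))
        (16 * min (mulTime A m) (m * (s .rE).length) + 40 * m) ∨
      (m * (s .rE).length < mulTime A m ∧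
        Runs (callM A) (liftStore s (fun _ => []))
          (liftStore (Function.update (Function.update (Function.update (Function.update s
            .cx []) .cy []) .cz (zer (2 * m))) .fl [false]) (fun _ => []))
          (16 * min (mulTime A m) (m * (s .rE).length) + 40 * m)) := by
  obtain ⟨t, ht, h⟩ := callM_spec hA hm s hx hy hz hM hM' hE' hfl
  have h1 : min t (m * (s .rE).length) ≤ min (mulTime A m) (m * (s .rE).length) := by
    omega
  rcases h with ⟨-, h⟩ | ⟨h2, h⟩
  · exact Or.inl (h.weaken (by omega))
  · exact Or.inr ⟨by omega, h.weaken (by omega)⟩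

end Vale.Agent.P338.Sim
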