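import Vale.Agent.P338.H463.NumP

/-!
# P338, multiplication modulo `p` and other programs on fixed width numbers (helper463)
-/

namespace Vale.Agent.P338.Num

open Vale.Agent.P338

/-! ### Constants -/

/-- is the register nonempty? -/
def ne (r : NR) (t : NR → Option Bool) : Bool := (t r).isSome

/-- move `tp` back to `p`, pushing zeros on `acc` -/
def zeroLoop : Prog NR Bool := .loop (ne .tp) (.act fun t r => match r with
  | .tp => .pop
  | .p => .push ((t .tp).getD false)
  | .acc => .push false
  | _ => .nop)

theorem zeroLoop_runs (l : List Bool) (s : NS) (hl : s.tp = l) :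
    Runs zeroLoop s.st { s with
      tp := [], p := l.reverse ++ s.p, acc := List.replicate l.length false ++ s.acc : NS }.st
      (2 * l.length + 1) := by
  induction l generalizing s with
  | nil =>
    refine (Runs.loop_stop ?_).conv ?_ (by simp)
    · simp [ne, Store.tops, NS.st, hl]
    · cases s
      simp only at hl
      subst hl
      rfl
  | cons a l ih =>
    have e2 := ih { s with tp := l, p := a :: s.p, acc := false :: s.acc } rfl
    refine (Runs.loop_step (c₁ := 1) ?_ (act_ns
      (s' := { s with tp := l, p := a :: s.p, acc := false :: s.acc }) fun r => ?_) e2).conv ?_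
      (by simp only [List.length_cons]; omega)
    · simp [ne, Store.tops, NS.st, hl]
    · cases r <;> simp [NS.st, Store.tops, Op.app, hl]
    · congr 1
      simp only [List.reverse_cons, List.append_assoc, List.singleton_append, List.length_cons]
      rw [List.replicate_succ', List.append_assoc, List.singleton_append]

/-- `acc := 0` (`W` bits) -/
def zeroP : Prog NR Bool := .seq (.flip .p .tp) zeroLoop

theorem zeroP_runs (s : NS) (h1 : s.tp = []) (h2 : s.acc = []) :
    Runs zeroP s.st { s with acc := List.replicate s.p.length false : NS }.st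
      (4 * s.p.length + 2) := by
  have e1 := flip_ns s .p .tp (by decide)
  have e2 := zeroLoop_runs s.p.reverse ((s.set .p []).set .tp ((s.st .p).reverse ++ s.st .tp))
    (by simp [NS.set, NS.st, h1])
  refine (e1.seq e2).conv ?_ ?_
  · cases s
    simp only at h1 h2
    subst h1 h2
    simp [NS.set]
  · simp only [NS.st, List.length_reverse]
    omega

theorem lbits_zero (w : ℕ) : lbits w 0 = List.replicate w false :=
  (eq_lbits (by simp) (lval_zer w)).symm

theorem dblP_runs {W P a : ℕ} (ha : a < P) (hP : 2 * P ≤ 2 ^ W) (s : NS)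
    (hc : Clean1 s) (hp : s.p = lbits W P) (hacc : s.acc = lbits W a) :
    Runs (addP true) s.st { s with
      acc := lbits W ((a + a) % P), f := decide (a + a < P) :: s.f : NS }.st (10 * W + 20) := by
  have e1 := addP_dbl s hc (by rw [hp, hacc, lbits_length, lbits_length])
  refine e1.conv ?_ (by rw [hacc, lbits_length])
  have h := addM_spec ha ha hP
  rw [← hacc, ← hp] at h
  rw [h.1, h.2]

theorem addP_runs {W P a u : ℕ} (ha : a < P) (hu : u < P) (hP : 2 * P ≤ 2 ^ W) (s : NS)
    (hc : Clean1 s) (hx : s.x = lbits W u) (hp : s.p = lbits W P) (hacc : s.acc = lbits W a) :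
    Runs (addP false) s.st { s with
      acc := lbits W ((a + u) % P), f := decide (a + u < P) :: s.f : NS }.st (10 * W + 20) := by
  have e1 := addP_add s hc (by rw [hx, hacc, lbits_length, lbits_length])
    (by rw [hp, hacc, lbits_length, lbits_length])
  refine e1.conv ?_ (by rw [hacc, lbits_length])
  have h := addM_spec ha hu hP
  rw [← hacc, ← hp, ← hx] at h
  rw [h.1, h.2]

theorem popf_runs (s : NS) (k : Bool) :
    Runs (.pop .f) { s with f := k :: s.f : NS }.st s.st 1 := by
  have e2 := pop_ns { s with f := k :: s.f } .f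
  simpa only [NS.set, NS.st, List.tail_cons] using e2

/-! ### Multiplication -/

/-- add `x` if the bit `bt` is set -/
def condAdd : Prog NR Bool := .branch fun t =>
  if t .bt = some true then .seq (addP false) (.pop .f) else .nop

/-- one bit of the multiplier -/
def mulBody : Prog NR Bool :=
  .seq (.act fun t r => match r with
    | .yr => .pop
    | .y => .push ((t .yr).getD false)
    | .bt => .push ((t .yr).getD false)
    | _ => .nop)
  (.seq (addP true) (.seq (.pop .f) (.seq condAdd (.pop .bt))))

/-- `acc := x * y mod p` -/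
def mulP : Prog NR Bool := .seq zeroP (.seq (.flip .y .yr) (.loop (ne .yr) mulBody))

theorem condAdd_runs {W P u a : ℕ} (hu : u < P) (ha : a < P) (hP : 2 * P ≤ 2 ^ W) (s : NS)
    (hc : Clean1 s) (hx : s.x = lbits W u) (hp : s.p = lbits W P) (hacc : s.acc = lbits W a)
    (b : Bool) (l : List Bool) (hb : s.bt = b :: l) :
    Runs condAdd s.st { s with acc := lbits W ((a + b.toNat * u) % P) : NS }.st
      (10 * W + 22) := by
  cases b
  · refine Runs.weaken (Runs.branch (c := 1) ?_) (by omega)
    rw [if_neg (by simp [Store.tops, NS.st, hb])]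
    refine (Runs.nop _).conv ?_ le_rfl
    simp only [Bool.toNat_false, zero_mul, add_zero]
    rw [Nat.mod_eq_of_lt ha, ← hacc]
  · refine Runs.weaken (Runs.branch (c := 10 * W + 21) ?_) (by omega)
    rw [if_pos (by simp [Store.tops, NS.st, hb])]
    have e1 := addP_runs ha hu hP s hc hx hp hacc
    have e2 := popf_runs { s with acc := lbits W ((a + u) % P) } (decide (a + u < P))
    refine (e1.seq e2).conv ?_ (by omega)
    simp

theorem mulBody_runs {W P u a : ℕ} (hu : u < P) (ha : a < P) (hP : 2 * P ≤ 2 ^ W) (s : NS)
    (hc : Clean1 s) (hx : s.x = lbits W u) (hp : s.p = lbits W P) (hacc : s.acc = lbits W a)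
    (b : Bool) (l : List Bool) (hb : s.yr = b :: l) (hbt : s.bt = []) :
    Runs mulBody s.st { s with
      acc := lbits W ((2 * a + b.toNat * u) % P), yr := l, y := b :: s.y : NS }.st
      (20 * W + 45) := by
  have e1 : Runs (Prog.act fun (t : NR → Option Bool) r => match r with
    | .yr => .pop
    | .y => .push ((t .yr).getD false)
    | .bt => .push ((t .yr).getD false)
    | _ => .nop) s.st { s with yr := l, y := b :: s.y, bt := [b] : NS }.st 1 := by
    refine act_ns fun r => ?_
    cases r <;> simp [NS.st, Store.tops, Op.app, hb, hbt]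
  have e2 := dblP_runs ha hP { s with yr := l, y := b :: s.y, bt := [b] }
    ⟨hc.1, hc.2, hc.3, hc.4, hc.5, hc.6⟩ hp hacc
  have hP0 : 0 < P := by omega
  have e3 := popf_runs { s with
    yr := l, y := b :: s.y, bt := [b], acc := lbits W ((a + a) % P) } (decide (a + a < P))
  have e4 := condAdd_runs hu (Nat.mod_lt (a + a) hP0) hP { s with
    yr := l, y := b :: s.y, bt := [b], acc := lbits W ((a + a) % P) }
    ⟨hc.1, hc.2, hc.3, hc.4, hc.5, hc.6⟩ hx hp rfl b [] rfl
  have e5 := pop_ns { s with
    yr := l, y := b :: s.y, bt := [b],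
    acc := lbits W (((a + a) % P + b.toNat * u) % P) } .bt
  simp only [NS.set, NS.st, List.tail_cons] at e5
  refine (e1.seq (e2.seq (e3.seq (e4.seq e5)))).conv ?_ (by omega)
  rw [Nat.mod_add_mod, ← two_mul, ← hbt]

theorem mulLoop_runs {W P u : ℕ} (hu : u < P) (hP : 2 * P ≤ 2 ^ W) (l : List Bool) (h : ℕ)
    (s : NS) (hc : Clean1 s) (hx : s.x = lbits W u) (hp : s.p = lbits W P)
    (hacc : s.acc = lbits W (h * u % P)) (hyr : s.yr = l) (hbt : s.bt = []) :
    Runs (.loop (ne .yr) mulBody) s.st { s with
      acc := lbits W ((h * 2 ^ l.length + lval l.reverse) * u % P)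
      yr := [], y := l.reverse ++ s.y : NS }.st
      (l.length * (20 * W + 46) + 1) := by
  induction l generalizing s h with
  | nil =>
    refine (Runs.loop_stop ?_).conv ?_ (by simp)
    · simp [ne, Store.tops, NS.st, hyr]
    · simp only [List.length_nil, pow_zero, mul_one, List.reverse_nil, lval, add_zero,
        List.nil_append]
      rw [← hacc, ← hyr]
  | cons b l ih =>
    have hP0 : 0 < P := by omega
    have e1 := mulBody_runs hu (Nat.mod_lt (h * u) hP0) hP s hc hx hp hacc b l hyr hbt
    have hv : (2 * (h * u % P) + b.toNat * u) % P = (2 * h + b.toNat) * u % P := by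
      conv_lhs => rw [Nat.add_mod, Nat.mul_mod_mod, ← Nat.add_mod]
      congr 1
      ring
    have e2 := ih (2 * h + b.toNat) { s with
      acc := lbits W ((2 * (h * u % P) + b.toNat * u) % P), yr := l, y := b :: s.y }
      ⟨hc.1, hc.2, hc.3, hc.4, hc.5, hc.6⟩ hx hp (by rw [hv]) rfl hbt
    refine (Runs.loop_step ?_ e1 e2).conv ?_ ?_
    · simp [ne, Store.tops, NS.st, hyr]
    · congr 1
      simp only [List.reverse_cons, List.append_assoc, List.singleton_append, List.length_cons]
      congr 3
      rw [lval_append]
      simp only [lval, List.length_reverse, pow_succ]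
      ring
    · simp only [List.length_cons]
      have : (l.length + 1) * (20 * W + 46) = l.length * (20 * W + 46) + (20 * W + 46) := by ring
      rw [this]
      omega

theorem mulP_runs {W P u v : ℕ} (hu : u < P) (hv : v < P) (hP : 2 * P ≤ 2 ^ W)
    (s : NS) (hc : Clean1 s) (hx : s.x = lbits W u) (hy : s.y = lbits W v) (hp : s.p = lbits W P)
    (hacc : s.acc = []) (hyr : s.yr = []) (hbt : s.bt = []) :
    Runs mulP s.st { s with acc := lbits W (u * v % P) : NS }.st (20 * W ^ 2 + 52 * W + 4) := by
  have hpl : s.p.length = W := by rw [hp, lbits_length]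
  have hyl : s.y.length = W := by rw [hy, lbits_length]
  have e1 := zeroP_runs s hc.tp hacc
  rw [hpl] at e1
  have e2 : Runs (.flip .y .yr) (NS.st { s with acc := List.replicate W false })
      (NS.st { s with acc := List.replicate W false, y := [], yr := s.y.reverse }) (2 * W + 1) :=
    (flip_ns _ .y .yr (by decide)).conv (by simp [NS.set, NS.st, hyr]) (by simp [NS.st, hyl])
  have e3 := mulLoop_runs hu hP s.y.reverse 0 { s with
    acc := List.replicate W false, y := [], yr := s.y.reverse }
    ⟨hc.1, hc.2, hc.3, hc.4, hc.5, hc.6⟩ hx hp (by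
      simp [lbits_zero]) rfl hbt
  refine (e1.seq (e2.seq e3)).conv ?_ ?_
  · simp only [List.reverse_reverse, zero_mul, zero_add, List.append_nil]
    have : lval s.y = v := by rw [hy, lval_lbits, Nat.mod_eq_of_lt (by omega : v < 2 ^ W)]
    rw [this, mul_comm v u, ← hyr]
  · simp only [List.length_reverse, hyl]
    have : W * (20 * W + 46) = 20 * W ^ 2 + 46 * W := by ring
    omega

end Vale.Agent.P338.Num
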