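import Vale.Agent.P338.H463.CallReg

/-!
# P338, call of the multiplying machine without clock (helper463)

`callUM A`: operands in `cx`, `cy` (least significant bit on top), product in `cz`; the size of the
call is `|cx| = |cy|`, whatever it is.
-/

namespace Vale.Agent.P338.Sim

open Vale.Agent.P338

set_option linter.unusedSectionVars false

variable {A : Machine} {P Γ : Type} [DecidableEq P] (I : SymI A Γ)

/-- Run `A` until it halts. -/
def runU : Prog (P ⊕ AReg A) Γ := .loop (running I) (stepA I)

theorem runU_runs (t : ℕ) (s : P → List Γ) (z z' : ZCfg A) (hz : ziter t z = some z')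
    (hh : A.δ z'.q z'.h = none) :
    Runs (runU I) (put I s z) (put I s z') (2 * t + 1) := by
  induction t generalizing z with
  | zero =>
    simp only [ziter, Option.some.injEq] at hz
    subst hz
    exact (Runs.loop_stop (by rw [running_put, hh]; rfl)).conv rfl (by omega)
  | succ t ih =>
    have hr := ziter_running hz
    simp only [ziter, Option.bind_eq_some_iff] at hz
    obtain ⟨z1, h1, h2⟩ := hz
    exact (Runs.loop_step (by rw [running_put, hr]) (stepA_runs I s h1) (ih z1 h2)).conv rfl
      (by omega)

/-- One call without clock: `x`, `y` hold the operands (least significant bit on top), `out`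
receives the product. -/
def callU (x y out : P) : Prog (P ⊕ AReg A) Γ :=
  .seq (loadAll I x y out) (.seq (runU I) (.seq (.clear (.inl out)) (.seq (rewind I)
    (.seq (readout I out) clean))))

theorem callU_runs (hA : Multiplies A) {x y out : P}
    (hnd : [x, y, out].Nodup) {m : ℕ} (hm : 1 ≤ m) (u v : List Bool)
    (hu : u.length = m) (hv : v.length = m) (s : P → List Γ) (hx : s x = u.map I.bit)
    (hy : s y = v.map I.bit) (hout : s out = []) :
    Runs (callU I x y out) (own s)
      (own (Function.update (Function.update (Function.update s x []) y []) out
        ((mulL m u v).map I.bit))) (6 * mulTime A m + 40 * m) := by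
  simp only [List.nodup_cons, List.mem_cons, List.not_mem_nil, or_false, not_or, not_false_eq_true,
    List.nodup_nil, and_true] at hnd
  obtain ⟨⟨a1, a2⟩, b2⟩ := hnd
  have hur : u.reverse.length = m := by simpa using hu
  have hvr : v.reverse.length = m := by simpa using hv
  obtain ⟨cf, h1, h2⟩ := (hA m hm _ _ hur hvr).haltsAt_runTime
  have ht := le_mulTime_of (A := A) _ _ hur hvr
  obtain ⟨t, htd⟩ : ∃ t, t = A.runTime (mulInput u.reverse v.reverse) := ⟨_, rfl⟩
  rw [← htd] at h1 ht
  obtain ⟨z, hz, hr⟩ := rep_after h1.1
  have hh := hr.halt h1.2
  rw [zafter_eq] at hz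
  have r1 := loadAll_runs I a1 a2 b2 u v s hx hy hout
  obtain ⟨s1, hs1⟩ : ∃ s1, s1 = Function.update (Function.update (Function.update s x []) y []) out
        (List.replicate (u.length + v.length) (I.bit false)) := ⟨_, rfl⟩
  rw [← hs1] at r1
  have r2 := runU_runs I t s1 _ z hz hh
  have hlen : ∀ k, z.len k ≤ 2 * m + 1 + t := fun k => by
    have h1 := ziter_len hz k
    have h2 := zinit_len (mulInput u.reverse v.reverse : List (Symb A.E)) k
    rw [length_mulInput, hur, hvr] at h2
    omega
  have hLl : ∀ k, (z.L k).length ≤ 2 * m + 1 + t := fun k => by
    have := hlen k; simp only [ZCfg.len] at this; omega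
  have hRl : ∀ k, (z.R k).length ≤ 2 * m + 1 + t := fun k => by
    have := hlen k; simp only [ZCfg.len] at this; omega
  have r4 := Runs.clear (R := P ⊕ AReg A) (Γ := Γ) (.inl out) (put I s1 z)
  rw [put_update, put_inl] at r4
  have r5 := rewind_runs I (Function.update s1 out []) z
  obtain ⟨m', hm'⟩ := out_word hr h2
  have r6 := readout_runs I out (bin (2 * m) (val u.reverse * val v.reverse)) m'
    (Function.update s1 out []) [I.ctl (z.q, z.h)]
    (Function.update (fun i => (z.L i).map I.cell) A.out [])
    (Function.update (fun i => (z.R i).map I.cell) A.out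
      (((z.L A.out).reverse ++ z.h A.out :: z.R A.out).map I.cell))
    (by rw [Function.update_self, hm'])
  have hm'l : m' ≤ 2 * m + 2 + t := by
    have := congrArg List.length hm'
    have h5 := hlen A.out
    simp only [ZCfg.len] at h5
    simp only [List.length_append, List.length_reverse, List.length_cons, List.length_map,
      List.length_replicate, length_bin] at this
    omega
  have r7 := clean_runs (2 * m + 2 + t) (Function.update (Function.update s1 out []) out
    ((bin (2 * m) (val u.reverse * val v.reverse)).reverse.map I.bit ++
      Function.update s1 out [] out)) [I.ctl (z.q, z.h)]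
    (Function.update (fun i => (z.L i).map I.cell) A.out [])
    (Function.update (Function.update (fun i => (z.R i).map I.cell) A.out
      (((z.L A.out).reverse ++ z.h A.out :: z.R A.out).map I.cell)) A.out
        ((List.replicate m' Symb.blank).map I.cell)) (by simp; omega) (fun k => by
          by_cases hk : k = A.out
          · subst hk; simp
          · have := hLl k
            simp only [hk, ne_eq, not_false_eq_true, Function.update_of_ne, List.length_map]
            omega) (fun k => by
          by_cases hk : k = A.out
          · subst hk; simpa using hm'l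
          · have := hRl k
            simp only [hk, ne_eq, not_false_eq_true, Function.update_of_ne, List.length_map]
            omega)
  refine (r1.seq (r2.seq (r4.seq (r5.seq (r6.seq r7))))).conv ?_ ?_
  · congr 1
    rw [bin_reverse, val_reverse, val_reverse, hs1]
    funext q
    by_cases h : q = out
    · subst h; simp [mulL]
    · simp [h]
  · have h6 : (s1 out).length = 2 * m := by rw [hs1]; simp [hu, hv]; ring
    have h7 := hLl A.out
    rw [length_bin, h6, hu, hv]
    omega

/-- The call without clock in the main program. -/
def callUM (A : Machine) : Prog (Reg ⊕ AReg A) (Bool ⊕ ASym A) :=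
  callU (symI A) .cx .cy .cz

theorem callUM_spec {A : Machine} (hA : Multiplies A) {m : ℕ} (hm : 1 ≤ m) (s : Store Reg Bool)
    (hx : (s .cx).length = m) (hy : (s .cy).length = m) (hz : s .cz = []) :
    Runs (callUM A) (liftStore s (fun _ => []))
      (liftStore (Function.update (Function.update (Function.update s .cx []) .cy []) .cz
        (mulL m (s .cx) (s .cy))) (fun _ => []))
      (6 * mulTime A m + 40 * m) := by
  have h := callU_runs (symI A) hA (x := Reg.cx) (y := .cy) (out := .cz) (by decide) hm
    (s .cx) (s .cy) hx hy (fun r => (s r).map Sum.inl) rfl rfl (by simp [hz])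
  have e1 : ∀ (s : Store Reg Bool) (r : Reg), Function.update
      (fun r => (s r).map (Sum.inl : Bool → Bool ⊕ ASym A)) r [] =
      fun q => (Function.update s r [] q).map Sum.inl := fun s r => map_update s r []
  have e3 : ∀ (s : Store Reg Bool) (r : Reg) (l : List Bool), Function.update
      (fun r => (s r).map (Sum.inl : Bool → Bool ⊕ ASym A)) r (l.map (symI A).bit) =
      fun q => (Function.update s r l q).map Sum.inl := fun s r l => map_update s r l
  simp only [e1, e3, own_liftStore] at h
  exact h

end Vale.Agent.P338.Sim
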