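import Vale.Agent.P338.H463.Num

/-!
# P338: increment and equality test of fixed width numbers (helper463)
-/

namespace Vale.Agent.P338.Num

open Vale.Agent.P338

/-! ### Increment -/

/-- Registers: number, scratch, carry. -/
inductive IR : Type
  | a | t | c
  deriving DecidableEq

/-- the store -/
def ist (a t c : List Bool) : Store IR Bool
  | .a => a | .t => t | .c => c

/-- `a := a + 1` (fixed width, carry lost) -/
def incP : Prog IR Bool :=
  .seq (.push .c true) (.seq (.loop (fun t => (t .a).isSome) (.act fun t r => match r with
    | .a => .pop
    | .t => .push (xor ((t .a).getD false) ((t .c).getD false))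
    | .c => .rep (((t .a).getD false) && ((t .c).getD false))))
  (.seq (.flip .t .a) (.pop .c)))

/-- ripple increment -/
def incL : Bool → List Bool → List Bool × Bool
  | k, [] => ([], k)
  | k, a :: l => (xor a k :: (incL (a && k) l).1, (incL (a && k) l).2)

theorem incL_len (k : Bool) (l : List Bool) : (incL k l).1.length = l.length := by
  induction l generalizing k with
  | nil => rfl
  | cons a l ih => simp [incL, ih]

theorem incL_val (k : Bool) (l : List Bool) :
    lval (incL k l).1 + 2 ^ l.length * (incL k l).2.toNat = lval l + k.toNat := by
  induction l generalizing k with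
  | nil => simp [incL, lval]
  | cons a l ih =>
    have := ih (a && k)
    simp only [incL, lval, List.length_cons, pow_succ]
    have e : (xor a k).toNat + 2 * (a && k).toNat = a.toNat + k.toNat := by
      cases a <;> cases k <;> rfl
    linarith

theorem incLoop_runs (l t : List Bool) (k : Bool) :
    Runs (.loop (fun t => (t .a).isSome) (.act fun t r => match r with
      | .a => .pop
      | .t => .push (xor ((t .a).getD false) ((t .c).getD false))
      | .c => .rep (((t .a).getD false) && ((t .c).getD false)))) (ist l t [k])
      (ist [] ((incL k l).1.reverse ++ t) [(incL k l).2]) (2 * l.length + 1) := by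
  induction l generalizing t k with
  | nil => exact (Runs.loop_stop (by simp [Store.tops, ist])).conv rfl (by simp)
  | cons a l ih =>
    refine (Runs.loop_step (c₁ := 1) (by simp [Store.tops, ist])
      ((Runs.act _ _).conv (s' := ist l (xor a k :: t) [a && k]) ?_ le_rfl) (ih _ _)).conv ?_
      (by simp only [List.length_cons]; omega)
    · funext r
      cases r <;> simp [ist, Store.tops, Op.app]
    · simp [incL]

theorem incP_runs {W v : ℕ} (hv : v + 1 < 2 ^ W) :
    Runs incP (ist (lbits W v) [] []) (ist (lbits W (v + 1)) [] []) (4 * W + 6) := by
  have l1 := incL_len true (lbits W v)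
  have v1 := incL_val true (lbits W v)
  rw [lbits_length] at l1 v1
  rw [lval_lbits, Nat.mod_eq_of_lt (by omega)] at v1
  have hk : (incL true (lbits W v)).2 = false := by
    cases hb : (incL true (lbits W v)).2
    · rfl
    · rw [hb] at v1
      simp only [Bool.toNat_true, mul_one] at v1
      omega
  rw [hk] at v1
  simp only [Bool.toNat_false, mul_zero, add_zero, Bool.toNat_true] at v1
  have hl : (incL true (lbits W v)).1 = lbits W (v + 1) := eq_lbits l1 v1
  have e1 : Runs (.push .c true) (ist (lbits W v) [] []) (ist (lbits W v) [] [true]) 1 :=
    (Runs.push _ _ _).conv (by funext r; cases r <;> simp [ist]) le_rfl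
  have e2 := incLoop_runs (lbits W v) [] true
  rw [hk, hl, List.append_nil] at e2
  have e3 : Runs (.flip .t .a) (ist [] (lbits W (v + 1)).reverse [false])
      (ist (lbits W (v + 1)) [] [false]) (2 * W + 1) :=
    (Runs.flip (by decide) _).conv (by funext r; cases r <;> simp [ist])
      (by simp [ist, lbits_length])
  have e4 : Runs (.pop .c) (ist (lbits W (v + 1)) [] [false]) (ist (lbits W (v + 1)) [] []) 1 :=
    (Runs.pop _ _).conv (by funext r; cases r <;> simp [ist]) le_rfl
  refine (e1.seq (e2.seq (e3.seq e4))).conv rfl ?_
  rw [lbits_length]
  omega

/-! ### Equality test -/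

/-- Registers: the two numbers, their scratch stacks, the answer. -/
inductive ER : Type
  | a | b | ta | tb | f
  deriving DecidableEq

/-- the store -/
def est (a b ta tb f : List Bool) : Store ER Bool
  | .a => a | .b => b | .ta => ta | .tb => tb | .f => f

/-- comparison loop -/
def eqLoop : Prog ER Bool := .loop (fun t => (t .a).isSome) (.act fun t r => match r with
    | .a => .pop
    | .b => .pop
    | .ta => .push ((t .a).getD false)
    | .tb => .push ((t .b).getD false)
    | .f => .rep (((t .f).getD false) && decide (t .a = t .b)))

/-- `f := [a = b]`, both numbers are kept -/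
def eqP : Prog ER Bool :=
  .seq (.push .f true) (.seq eqLoop (.seq (.flip .ta .a) (.flip .tb .b)))

theorem eqLoop_runs (a b ta tb : List Bool) (k : Bool) (h : a.length = b.length) :
    Runs eqLoop (est a b ta tb [k])
      (est [] [] (a.reverse ++ ta) (b.reverse ++ tb) [k && decide (a = b)])
      (2 * a.length + 1) := by
  induction a generalizing b ta tb k with
  | nil =>
    have hb : b = [] := List.length_eq_zero_iff.1 (by simpa using h.symm)
    subst hb
    exact (Runs.loop_stop (by simp [Store.tops, est])).conv (by simp) (by simp)
  | cons x a ih =>
    cases b with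
    | nil => simp at h
    | cons y b =>
      refine (Runs.loop_step (c₁ := 1) (by simp [Store.tops, est])
        ((Runs.act _ _).conv (s' := est a b (x :: ta) (y :: tb) [k && decide (x = y)]) ?_ le_rfl)
        (ih b _ _ _ (by simpa using h))).conv ?_ (by simp only [List.length_cons]; omega)
      · funext r
        cases r <;> simp [est, Store.tops, Op.app]
      · simp only [List.reverse_cons, List.append_assoc, List.singleton_append,
          List.cons.injEq, Bool.decide_and, Bool.and_assoc]

theorem eqP_runs (a b : List Bool) (h : a.length = b.length) :
    Runs eqP (est a b [] [] []) (est a b [] [] [decide (a = b)]) (6 * a.length + 4) := by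
  have e1 : Runs (.push .f true) (est a b [] [] []) (est a b [] [] [true]) 1 :=
    (Runs.push _ _ _).conv (by funext r; cases r <;> simp [est]) le_rfl
  have e2 := eqLoop_runs a b [] [] true h
  simp only [Bool.true_and, List.append_nil] at e2
  have e3 : Runs (.flip .ta .a) (est [] [] a.reverse b.reverse [decide (a = b)])
      (est a [] [] b.reverse [decide (a = b)]) (2 * a.length + 1) :=
    (Runs.flip (by decide) _).conv (by funext r; cases r <;> simp [est]) (by simp [est])
  have e4 : Runs (.flip .tb .b) (est a [] [] b.reverse [decide (a = b)])
      (est a b [] [] [decide (a = b)]) (2 * b.length + 1) :=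
    (Runs.flip (by decide) _).conv (by funext r; cases r <;> simp [est]) (by simp [est])
  refine (e1.seq (e2.seq (e3.seq e4))).conv rfl ?_
  omega

/-- equality test for numbers -/
theorem eqP_num {W u v : ℕ} (hu : u < 2 ^ W) (hv : v < 2 ^ W) :
    Runs eqP (est (lbits W u) (lbits W v) [] [] [])
      (est (lbits W u) (lbits W v) [] [] [decide (u = v)]) (6 * W + 4) := by
  have h := eqP_runs (lbits W u) (lbits W v) (by rw [lbits_length, lbits_length])
  rw [lbits_length] at h
  have e : decide (lbits W u = lbits W v) = decide (u = v) := by
    rw [decide_eq_decide]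
    refine ⟨fun h => ?_, fun h => by rw [h]⟩
    have h1 := congrArg lval h
    rwa [lval_lbits, lval_lbits, Nat.mod_eq_of_lt hu, Nat.mod_eq_of_lt hv] at h1
  rwa [e] at h

end Vale.Agent.P338.Num
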