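import Vale.Agent.P338.H463.Num

/-!
# P338, programs for arithmetic modulo `p` (helper463)

Own registers `NR`, state `NS`.  `mulP : acc := x * y mod p` (all numbers have `W` bits, least
significant bit on top; `x`, `y`, `p` are preserved), `oneP`, `incP`, `muP` (quotient `2^W / p`).
-/

namespace Vale.Agent.P338.Num

open Vale.Agent.P338

/-- Registers of the arithmetic. -/
inductive NR : Type
  | acc | x | y | p | ta | tb | tp | tx | c1 | c2 | yr | bt | f
  deriving DecidableEq

/-- States of the arithmetic. -/
structure NS : Type where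
  acc : List Bool := []
  x : List Bool := []
  y : List Bool := []
  p : List Bool := []
  ta : List Bool := []
  tb : List Bool := []
  tp : List Bool := []
  tx : List Bool := []
  c1 : List Bool := []
  c2 : List Bool := []
  yr : List Bool := []
  bt : List Bool := []
  f : List Bool := []

/-- The store of a state. -/
def NS.st (s : NS) : Store NR Bool
  | .acc => s.acc | .x => s.x | .y => s.y | .p => s.p | .ta => s.ta | .tb => s.tb
  | .tp => s.tp | .tx => s.tx | .c1 => s.c1 | .c2 => s.c2 | .yr => s.yr | .bt => s.bt
  | .f => s.f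

/-- An act, the result given componentwise. -/
theorem act_ns {g : (NR → Option Bool) → NR → Op Bool} {s s' : NS}
    (h : ∀ r, (g s.st.tops r).app (s.st r) = s'.st r) : Runs (.act g) s.st s'.st 1 :=
  (Runs.act g _).conv (funext h) le_rfl

/-- one bit of addition / doubling and of the reduction -/
def addBit (dbl : Bool) : Prog NR Bool := .act fun t =>
  let a := (t .acc).getD false
  let b := if dbl then a else (t .x).getD false
  let q := (t .p).getD false
  let k1 := (t .c1).getD false
  let k2 := (t .c2).getD false
  fun r => match r with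
    | .acc => .pop
    | .x => if dbl then .nop else .pop
    | .p => .pop
    | .ta => .push (fa a b k1).1
    | .tb => .push (fs (fa a b k1).1 q k2).1
    | .tp => .push q
    | .tx => if dbl then .nop else .push b
    | .c1 => .rep (fa a b k1).2
    | .c2 => .rep (fs (fa a b k1).1 q k2).2
    | _ => .nop

theorem addBit_add (s : NS) (a b q k1 k2 : Bool) (as bs qs : List Bool)
    (ha : s.acc = a :: as) (hb : s.x = b :: bs) (hq : s.p = q :: qs) (h1 : s.c1 = [k1])
    (h2 : s.c2 = [k2]) :
    Runs (addBit false) s.st { s with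
      acc := as, x := bs, p := qs, ta := (fa a b k1).1 :: s.ta,
      tb := (fs (fa a b k1).1 q k2).1 :: s.tb, tp := q :: s.tp, tx := b :: s.tx,
      c1 := [(fa a b k1).2], c2 := [(fs (fa a b k1).1 q k2).2] : NS }.st 1 := by
  refine act_ns fun r => ?_
  cases r <;> simp [NS.st, Store.tops, Op.app, ha, hb, hq, h1, h2]

theorem addBit_dbl (s : NS) (a q k1 k2 : Bool) (as qs : List Bool)
    (ha : s.acc = a :: as) (hq : s.p = q :: qs) (h1 : s.c1 = [k1]) (h2 : s.c2 = [k2]) :
    Runs (addBit true) s.st { s with
      acc := as, p := qs, ta := (fa a a k1).1 :: s.ta,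
      tb := (fs (fa a a k1).1 q k2).1 :: s.tb, tp := q :: s.tp,
      c1 := [(fa a a k1).2], c2 := [(fs (fa a a k1).1 q k2).2] : NS }.st 1 := by
  refine act_ns fun r => ?_
  cases r <;> simp [NS.st, Store.tops, Op.app, ha, hq, h1, h2]

/-- while `acc` is nonempty -/
def accNE (t : NR → Option Bool) : Bool := (t .acc).isSome

theorem addLoop_add (as : List Bool) (s : NS) (bs qs : List Bool) (k1 k2 : Bool)
    (ha : s.acc = as) (hb : s.x = bs) (hq : s.p = qs) (hbl : bs.length = as.length)
    (hql : qs.length = as.length) (h1 : s.c1 = [k1]) (h2 : s.c2 = [k2]) :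
    Runs (.loop accNE (addBit false)) s.st { s with
      acc := [], x := [], p := [], ta := (addL k1 as bs).1.reverse ++ s.ta,
      tb := (subL k2 (addL k1 as bs).1 qs).1.reverse ++ s.tb, tp := qs.reverse ++ s.tp,
      tx := bs.reverse ++ s.tx,
      c1 := [(addL k1 as bs).2], c2 := [(subL k2 (addL k1 as bs).1 qs).2] : NS }.st
      (2 * as.length + 1) := by
  induction as generalizing s bs qs k1 k2 with
  | nil =>
    have hb0 : bs = [] := List.length_eq_zero_iff.1 (by simpa using hbl)
    have hq0 : qs = [] := List.length_eq_zero_iff.1 (by simpa using hql)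
    subst hb0 hq0
    refine (Runs.loop_stop ?_).conv ?_ (by simp)
    · simp [accNE, Store.tops, NS.st, ha]
    · cases s
      simp only at ha hb hq h1 h2
      subst ha hb hq h1 h2
      rfl
  | cons a as ih =>
    cases bs with
    | nil => simp at hbl
    | cons b bs =>
      cases qs with
      | nil => simp at hql
      | cons q qs =>
        have e1 := addBit_add s a b q k1 k2 as bs qs ha hb hq h1 h2
        have e2 := ih { s with
          acc := as, x := bs, p := qs, ta := (fa a b k1).1 :: s.ta,
          tb := (fs (fa a b k1).1 q k2).1 :: s.tb, tp := q :: s.tp, tx := b :: s.tx,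
          c1 := [(fa a b k1).2], c2 := [(fs (fa a b k1).1 q k2).2] } bs qs
          (fa a b k1).2 (fs (fa a b k1).1 q k2).2 rfl rfl rfl (by simpa using hbl)
          (by simpa using hql) rfl rfl
        refine (Runs.loop_step ?_ e1 e2).conv ?_ (by simp only [List.length_cons]; omega)
        · simp [accNE, Store.tops, NS.st, ha]
        · congr 1
          simp [addL, subL]

theorem addLoop_dbl (as : List Bool) (s : NS) (qs : List Bool) (k1 k2 : Bool)
    (ha : s.acc = as) (hq : s.p = qs)
    (hql : qs.length = as.length) (h1 : s.c1 = [k1]) (h2 : s.c2 = [k2]) :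
    Runs (.loop accNE (addBit true)) s.st { s with
      acc := [], p := [], ta := (addL k1 as as).1.reverse ++ s.ta,
      tb := (subL k2 (addL k1 as as).1 qs).1.reverse ++ s.tb, tp := qs.reverse ++ s.tp,
      c1 := [(addL k1 as as).2], c2 := [(subL k2 (addL k1 as as).1 qs).2] : NS }.st
      (2 * as.length + 1) := by
  induction as generalizing s qs k1 k2 with
  | nil =>
    have hq0 : qs = [] := List.length_eq_zero_iff.1 (by simpa using hql)
    subst hq0
    refine (Runs.loop_stop ?_).conv ?_ (by simp)
    · simp [accNE, Store.tops, NS.st, ha]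
    · cases s
      simp only at ha hq h1 h2
      subst ha hq h1 h2
      rfl
  | cons a as ih =>
    cases qs with
    | nil => simp at hql
    | cons q qs =>
      have e1 := addBit_dbl s a q k1 k2 as qs ha hq h1 h2
      have e2 := ih { s with
        acc := as, p := qs, ta := (fa a a k1).1 :: s.ta,
        tb := (fs (fa a a k1).1 q k2).1 :: s.tb, tp := q :: s.tp,
        c1 := [(fa a a k1).2], c2 := [(fs (fa a a k1).1 q k2).2] } qs
        (fa a a k1).2 (fs (fa a a k1).1 q k2).2 rfl rfl
        (by simpa using hql) rfl rfl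
      refine (Runs.loop_step ?_ e1 e2).conv ?_ (by simp only [List.length_cons]; omega)
      · simp [accNE, Store.tops, NS.st, ha]
      · congr 1
        simp [addL, subL]

/-! ### Moving lists between registers -/

/-- field update -/
def NS.set (s : NS) : NR → List Bool → NS
  | .acc, l => { s with acc := l } | .x, l => { s with x := l } | .y, l => { s with y := l }
  | .p, l => { s with p := l } | .ta, l => { s with ta := l } | .tb, l => { s with tb := l }
  | .tp, l => { s with tp := l } | .tx, l => { s with tx := l } | .c1, l => { s with c1 := l }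
  | .c2, l => { s with c2 := l } | .yr, l => { s with yr := l } | .bt, l => { s with bt := l }
  | .f, l => { s with f := l }

theorem set_st (s : NS) (r : NR) (l : List Bool) :
    (s.set r l).st = Function.update s.st r l := by
  funext q
  cases r <;> cases q <;> simp [NS.set, NS.st]

theorem flip_ns (s : NS) (r q : NR) (hrq : r ≠ q) :
    Runs (.flip r q) s.st ((s.set r []).set q ((s.st r).reverse ++ s.st q)).st
      (2 * (s.st r).length + 1) :=
  (Runs.flip hrq s.st).conv (by rw [set_st, set_st]) le_rfl

theorem clear_ns (s : NS) (r : NR) :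
    Runs (.clear r) s.st (s.set r []).st (2 * (s.st r).length + 1) :=
  (Runs.clear r s.st).conv (by rw [set_st]) le_rfl

theorem push_ns (s : NS) (r : NR) (b : Bool) :
    Runs (.push r b) s.st (s.set r (b :: s.st r)).st 1 :=
  (Runs.push r b s.st).conv (by rw [set_st]) le_rfl

theorem pop_ns (s : NS) (r : NR) :
    Runs (.pop r) s.st (s.set r (s.st r).tail).st 1 :=
  (Runs.pop r s.st).conv (by rw [set_st]) le_rfl

/-! ### Addition modulo `p` -/

/-- choose between the sum (`ta`) and the difference (`tb`) -/
def selP : Prog NR Bool := .branch fun t =>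
  if t .c2 = some true then .seq (.clear .tb) (.seq (.flip .ta .acc) (.push .f true))
  else .seq (.clear .ta) (.seq (.flip .tb .acc) (.push .f false))

/-- `acc := acc + x mod p` resp. `acc := 2 * acc mod p`; pushes on `f` the bit of no reduction. -/
def addP (dbl : Bool) : Prog NR Bool :=
  .seq (.push .c1 false) (.seq (.push .c2 false) (.seq (.loop accNE (addBit dbl))
    (.seq (.flip .tp .p) (.seq (.flip .tx .x) (.seq (.pop .c1) (.seq selP (.pop .c2)))))))

/-- the registers used by `addP` as scratch are empty -/
structure Clean1 (s : NS) : Prop where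
  ta : s.ta = []
  tb : s.tb = []
  tp : s.tp = []
  tx : s.tx = []
  c1 : s.c1 = []
  c2 : s.c2 = []

theorem selP_runs (x y p S D yr bt f : List Bool) (k : Bool) (W : ℕ)
    (hS : S.length = W) (hD : D.length = W) :
    Runs selP (NS.st ⟨[], x, y, p, S.reverse, D.reverse, [], [], [], [k], yr, bt, f⟩)
      (NS.st ⟨if k then S else D, x, y, p, [], [], [], [], [], [k], yr, bt, k :: f⟩) (4 * W + 4) := by
  cases k
  · have e1 := clear_ns ⟨[], x, y, p, S.reverse, D.reverse, [], [], [], [false], yr, bt, f⟩ .ta
    have e2 := flip_ns ⟨[], x, y, p, [], D.reverse, [], [], [], [false], yr, bt, f⟩ .tb .acc (by decide)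
    have e3 := push_ns ⟨D, x, y, p, [], [], [], [], [], [false], yr, bt, f⟩ .f false
    simp only [NS.set, NS.st, List.reverse_reverse, List.append_nil,
      List.length_reverse] at e1 e2 e3
    refine Runs.weaken (Runs.branch (c := 4 * W + 3) ?_) (by omega)
    rw [if_neg (by simp [Store.tops, NS.st])]
    exact (e1.seq (e2.seq e3)).conv rfl (by omega)
  · have e1 := clear_ns ⟨[], x, y, p, S.reverse, D.reverse, [], [], [], [true], yr, bt, f⟩ .tb
    have e2 := flip_ns ⟨[], x, y, p, S.reverse, [], [], [], [], [true], yr, bt, f⟩ .ta .acc (by decide)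
    have e3 := push_ns ⟨S, x, y, p, [], [], [], [], [], [true], yr, bt, f⟩ .f true
    simp only [NS.set, NS.st, List.reverse_reverse, List.append_nil,
      List.length_reverse] at e1 e2 e3
    refine Runs.weaken (Runs.branch (c := 4 * W + 3) ?_) (by omega)
    rw [if_pos (by simp [Store.tops, NS.st])]
    exact (e1.seq (e2.seq e3)).conv rfl (by omega)

theorem addP_add (s : NS) (hc : Clean1 s) (hb : s.x.length = s.acc.length)
    (hq : s.p.length = s.acc.length) :
    Runs (addP false) s.st { s with
      acc := addM s.p s.acc s.x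
      f := (subL false (addL false s.acc s.x).1 s.p).2 :: s.f : NS }.st
      (10 * s.acc.length + 20) := by
  obtain ⟨acc, x, y, p, ta, tb, tp, tx, c1, c2, yr, bt, f⟩ := s
  obtain ⟨h1, h2, h3, h4, h5, h6⟩ := hc
  simp only at h1 h2 h3 h4 h5 h6 hb hq
  subst h1 h2 h3 h4 h5 h6
  have r1 := push_ns ⟨acc, x, y, p, [], [], [], [], [], [], yr, bt, f⟩
    .c1 false
  have r2 := push_ns ⟨acc, x, y, p, [], [], [], [], [false], [], yr, bt, f⟩ .c2 false
  have r3 := addLoop_add acc ⟨acc, x, y, p, [], [], [], [], [false], [false], yr, bt, f⟩ x p false false rfl rfl rfl hb hq rfl rfl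
  simp only [List.append_nil] at r3
  obtain ⟨S, hS⟩ : ∃ S, S = (addL false acc x).1 := ⟨_, rfl⟩
  obtain ⟨D, hD⟩ : ∃ D, D = (subL false S p).1 := ⟨_, rfl⟩
  have lS : S.length = acc.length := by rw [hS]; exact addL_len _ _ _ hb.symm
  have lD : D.length = acc.length := by
    rw [hD, subL_len _ _ _ (by rw [lS, hq]), lS]
  rw [← hS, ← hD] at r3
  have r4 := flip_ns ⟨[], [], y, [], S.reverse, D.reverse, p.reverse, x.reverse,
    [(addL false acc x).2], [(subL false S p).2], yr, bt, f⟩ .tp .p
    (by decide)
  have r5 := flip_ns ⟨[], [], y, p, S.reverse, D.reverse, [], x.reverse,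
    [(addL false acc x).2], [(subL false S p).2], yr, bt, f⟩ .tx .x
    (by decide)
  have r6 := pop_ns ⟨[], x, y, p, S.reverse, D.reverse, [], [],
    [(addL false acc x).2], [(subL false S p).2], yr, bt, f⟩ .c1
  have r7 := selP_runs x y p S D yr bt f (subL false S p).2 acc.length lS lD
  have r8 := pop_ns ⟨if (subL false S p).2 then S else D, x, y, p, [], [], [], [], [],
    [(subL false S p).2], yr, bt, (subL false S p).2 :: f⟩ .c2
  simp only [NS.set, NS.st, List.reverse_reverse, List.append_nil, List.tail_cons,
    List.length_reverse] at r1 r2 r4 r5 r6 r8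
  refine (r1.seq (r2.seq (r3.seq (r4.seq (r5.seq (r6.seq (r7.seq r8))))))).conv ?_ ?_
  · rw [hD, hS]; rfl
  · simp only
    omega

theorem addP_dbl (s : NS) (hc : Clean1 s) (hq : s.p.length = s.acc.length) :
    Runs (addP true) s.st { s with
      acc := addM s.p s.acc s.acc
      f := (subL false (addL false s.acc s.acc).1 s.p).2 :: s.f : NS }.st
      (10 * s.acc.length + 20) := by
  obtain ⟨acc, x, y, p, ta, tb, tp, tx, c1, c2, yr, bt, f⟩ := s
  obtain ⟨h1, h2, h3, h4, h5, h6⟩ := hc
  simp only at h1 h2 h3 h4 h5 h6 hq
  subst h1 h2 h3 h4 h5 h6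
  have r1 := push_ns ⟨acc, x, y, p, [], [], [], [], [], [], yr, bt, f⟩
    .c1 false
  have r2 := push_ns ⟨acc, x, y, p, [], [], [], [], [false], [], yr, bt, f⟩ .c2 false
  have r3 := addLoop_dbl acc ⟨acc, x, y, p, [], [], [], [], [false], [false], yr, bt, f⟩ p false false rfl rfl hq rfl rfl
  simp only [List.append_nil] at r3
  obtain ⟨S, hS⟩ : ∃ S, S = (addL false acc acc).1 := ⟨_, rfl⟩
  obtain ⟨D, hD⟩ : ∃ D, D = (subL false S p).1 := ⟨_, rfl⟩
  have lS : S.length = acc.length := by rw [hS]; exact addL_len _ _ _ rfl
  have lD : D.length = acc.length := by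
    rw [hD, subL_len _ _ _ (by rw [lS, hq]), lS]
  rw [← hS, ← hD] at r3
  have r4 := flip_ns ⟨[], x, y, [], S.reverse, D.reverse, p.reverse, [],
    [(addL false acc acc).2], [(subL false S p).2], yr, bt, f⟩ .tp .p
    (by decide)
  have r5 := flip_ns ⟨[], x, y, p, S.reverse, D.reverse, [], [],
    [(addL false acc acc).2], [(subL false S p).2], yr, bt, f⟩ .tx .x
    (by decide)
  have r6 := pop_ns ⟨[], x, y, p, S.reverse, D.reverse, [], [],
    [(addL false acc acc).2], [(subL false S p).2], yr, bt, f⟩ .c1
  have r7 := selP_runs x y p S D yr bt f (subL false S p).2 acc.length lS lD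
  have r8 := pop_ns ⟨if (subL false S p).2 then S else D, x, y, p, [], [], [], [], [],
    [(subL false S p).2], yr, bt, (subL false S p).2 :: f⟩ .c2
  simp only [NS.set, NS.st, List.reverse_reverse, List.append_nil, List.tail_cons,
    List.length_reverse, List.reverse_nil, List.nil_append] at r1 r2 r4 r5 r6 r8
  refine (r1.seq (r2.seq (r3.seq (r4.seq (r5.seq (r6.seq (r7.seq r8))))))).conv ?_ ?_
  · rw [hD, hS]; rfl
  · simp only [List.length_nil]
    omega

end Vale.Agent.P338.Num
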